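import Vale.Agent.P352X.R.CONK.Spec
import Vale.Agent.P352X.R.FAR
import Vale.Agent.P352X.Api2
import Vale.Agent.P352X.Api1C

/-!
# P352X, block CONK, row TRI
-/

set_option linter.all false

open MeasureTheory Filter Topology Set
open scoped ContDiff SchwartzMap

namespace Vale.Agent.P352X.CK

open Vale.Agent.P352 Vale.Agent.P352.GF Vale.Agent.P352.BW Vale.Agent.P352.H246
open Vale.Agent.P352.H496 Vale.Agent.P352.H755 Vale.Agent.P352X.Ap
open UniformSpace (Completion)

variable {D : Type*} [NormedAddCommGroup D] [InnerProductSpace ℂ D] {c : Ctx D}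

theorem bar_bar' (f : Fn) : bar (bar f) = f := funext fun _ => star_star _

theorem test_bar {f : Fn} (hf : IsTest f) : IsTest (bar f) := sw_star hf

theorem tsupport_bar (f : Fn) : tsupport (bar f) = tsupport f := tsupport_conj f

theorem in_bar {O : Set V} {f : Fn} (hf : In O f) : In O (bar f) :=
  ⟨test_bar hf.1, by rw [HasCompactSupport, tsupport_bar]; exact hf.2.1,
    (tsupport_bar f).trans_subset hf.2.2⟩

theorem in_mono {O O' : Set V} {f : Fn} (hf : In O f) (h : O ⊆ O') : In O' f :=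
  ⟨hf.1, hf.2.1, hf.2.2.trans h⟩

theorem in_dc {O : Set V} {f : Fn} (hf : Dc f) (h : tsupport f ⊆ O) : In O f :=
  ⟨Far.isTest_dc hf, hf.2, h⟩

theorem smooth_pol (j : Fin 4) : ContDiff ℝ ∞ (pol j) := by
  fin_cases j
  exacts [contDiff_const, contDiff_apply ℝ ℝ 0, contDiff_apply ℝ ℝ 1,
    smooth_d2 contDiff_id contDiff_id]

theorem smooth_qol (j : Fin 4) : ContDiff ℝ ∞ (qol j) := by
  fin_cases j
  exacts [smooth_d2 contDiff_id contDiff_id, contDiff_const.mul (contDiff_apply ℝ ℝ 0),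
    contDiff_const.mul (contDiff_apply ℝ ℝ 1), contDiff_const]

theorem tst_wt {p : R2 → ℝ} {f : P3 → ℝ} (hp : ContDiff ℝ ∞ p) (hf : Tst f) : Tst (wt p f) :=
  cs_mul_l (hp.comp contDiff_snd) hf

theorem tsupport_wt (p : R2 → ℝ) (f : P3 → ℝ) : tsupport (wt p f) ⊆ tsupport f :=
  tsupport_mul_subset_right

theorem in_pr {f : P3 → ℝ} {θ : ℝ → ℝ} {A : Set P3} {B : Set ℝ} (hf : Tst f) (hθ : Tst θ)
    (h : tsupport f ⊆ A) (h' : tsupport θ ⊆ B) : In {z | pl z ∈ A ∧ be z ∈ B} (pr f θ) :=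
  in_dc (Far.dc_pr hf hθ) fun _ hz =>
    ⟨h (Far.tsupport_pr _ _ hz).1, h' (Far.tsupport_pr _ _ hz).2⟩

/-- the fields are linear maps -/
theorem T_lin (m n : Ix) {f : Fn} (hf : IsTest f) : IsLinearMap ℂ (c.T m n f) := by
  have e : ∀ w v, inner ℂ w (c.T m n f v) = inner ℂ (c.T m n (bar f) w) v := fun w v => by
    rw [c.hT.herm m n _ _ _ (test_bar hf), bar_bar']
  exact ⟨fun u v => ext_inner_left ℂ fun w => by simp only [e, inner_add_right],
    fun a v => ext_inner_left ℂ fun w => by simp only [e, inner_smul_right]⟩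

theorem Taa_eq {h : Fn} (hh : IsTest h) (v : D) : Taa c h v = ∑ k : Ix × Ix,
    ((eta k.1 * va k.1 * (eta k.2 * va k.2) : ℝ) : ℂ) • c.T k.1 k.2 h v := by
  rw [Fintype.sum_prod_type, Taa, Ctx.Tf]
  exact Finset.sum_congr rfl fun m _ => Finset.sum_congr rfl fun n _ => Far.T_smul c m n _ hh v

theorem comm_sum {ι κ : Type*} [Fintype ι] [Fintype κ] {A : ι → D → D} {B : κ → D → D}
    (a : ι → ℂ) (b : κ → ℂ) (hA : ∀ i, IsLinearMap ℂ (A i)) (hB : ∀ k, IsLinearMap ℂ (B k))
    (h : ∀ i k v, A i (B k v) = B k (A i v)) (v : D) :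
    ∑ i, a i • A i (∑ k, b k • B k v) = ∑ k, b k • B k (∑ i, a i • A i v) := by
  have e1 : ∀ i, A i (∑ k, b k • B k v) = ∑ k, b k • A i (B k v) := fun i => by
    simpa only [map_smul, IsLinearMap.mk'_apply] using
      map_sum (IsLinearMap.mk' _ (hA i)) (fun k => b k • B k v) Finset.univ
  have e2 : ∀ k, B k (∑ i, a i • A i v) = ∑ i, a i • B k (A i v) := fun k => by
    simpa only [map_smul, IsLinearMap.mk'_apply] using
      map_sum (IsLinearMap.mk' _ (hB k)) (fun i => a i • A i v) Finset.univ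
  simp only [e1, e2, h, Finset.smul_sum]
  rw [Finset.sum_comm]
  simp only [smul_comm (a _) (b _)]

theorem taa_herm {h : Fn} (hh : IsTest h) (u v : D) :
    inner ℂ (Taa c h u) v = inner ℂ u (Taa c (bar h) v) := by
  simp only [Taa_eq hh, Taa_eq (test_bar hh), sum_inner, inner_sum, inner_smul_left,
    inner_smul_right, Complex.conj_ofReal, c.hT.herm _ _ _ _ _ hh]

theorem thf_herm {h : Fn} (hh : IsTest h) (u v : D) :
    inner ℂ (c.Thf h u) v = inner ℂ u (c.Thf (bar h) v) := by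
  simp only [Ctx.Thf, GF.tr, sum_inner, inner_sum, inner_smul_left,
    inner_smul_right, Complex.conj_ofReal, c.hT.herm _ _ _ _ _ hh]

/-- locality -/
theorem com_sep {g h : Fn} (hg : IsTest g) (hh : IsTest h) (s : Sep g h) (v : D) :
    c.Thf g (c.Thf h v) = c.Thf h (c.Thf g v) ∧ c.Thf g (Taa c h v) = Taa c h (c.Thf g v) := by
  have l := fun m n k l v => c.Q.loc (c.T m n) (c.T k l) g h v (c.hT.bose m n)
    (c.Q.bose_fld _ (c.hT.bose k l)) hg hh s
  rw [Taa_eq hh, Taa_eq hh]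
  unfold Ctx.Thf GF.tr
  refine ⟨comm_sum (A := fun m => c.T m m g) (B := fun m => c.T m m h) _ _
    (fun _ => T_lin _ _ hg) (fun _ => T_lin _ _ hh) (fun _ _ => l _ _ _ _) v, ?_⟩
  exact comm_sum (A := fun m => c.T m m g) (B := fun k : Ix × Ix => c.T k.1 k.2 h) _ _
    (fun _ => T_lin _ _ hg) (fun _ => T_lin _ _ hh) (fun _ _ => l _ _ _ _) v

theorem sep_of {a u0 : ℝ} {g h : Fn} (hh : tsupport h ⊆ {z | al z < a ∧ -u0 < be z})
    (hg : tsupport g ⊆ {z | be z ≤ -u0 ∧ a ≤ al z}) : Sep g h := fun x hx y hy => by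
  change mdot (x - y) (x - y) < 0
  rw [mdot_null, al_sub, be_sub]
  nlinarith [d2_nonneg (tx (x - y)), mul_pos (sub_pos.2 ((hh hy).1.trans_le (hg hx).2))
    (sub_pos.2 ((hg hx).1.trans_lt (hh hy).2))]

theorem in_hk {O : Set V} {h : Fn} (hh : In O h) (a b : V) (m n : Ix) : In O (hk a b h m n) :=
  ⟨sw_cmul _ hh.1, hh.2.1.mul_left, tsupport_mul_subset_right.trans hh.2.2⟩

theorem bar_hk (a b : V) (h : Fn) : (fun m n => bar (hk a b h m n)) = hk a b (bar h) := by
  funext m n x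
  simp [bar, hk]

/-- weak commutation with operators in the opposite wedge -/
theorem op_wdg (t : T1 c) {a u0 : ℝ} {O : Set V} {X} {h : Fn} (u v : D)
    (hO : O ⊆ {z | be z < -u0 ∧ a < al z}) (hX : X ∈ c.N O)
    (hh : In {z | al z < a ∧ -u0 < be z} h) :
    inner ℂ ((c.Thf (bar h) u : D) : Completion D) (X (v : Completion D)) =
      inner ℂ (u : Completion D) (X ((c.Thf h v : D) : Completion D)) ∧
    inner ℂ ((Taa c (bar h) u : D) : Completion D) (X (v : Completion D)) =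
      inner ℂ (u : Completion D) (X ((Taa c h v : D) : Completion D)) := by
  have hX' : X ∈ (c.N {z | al z < a ∧ -u0 < be z}).commutant :=
    t.jc.loc (y := pt a (-u0) 0) null_vb null_va (by rw [md_vb]; simp)
      (fun z hz => ⟨by rw [md_vb]; simpa using hz.1, by rw [md_va]; simp; linarith [hz.2]⟩)
      (fun z hz => ⟨by rw [md_va]; simp; linarith [(hO hz).1], by rw [md_vb]; simpa using (hO hz).2⟩)
      X hX
  refine ⟨(t.grp.affh _ h hh).2 X hX' v u, ?_⟩
  have := (t.grp.afft _ _ (in_hk hh va va)).2 X hX' v u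
  rwa [bar_hk] at this

theorem tri_row (c : Ctx D) (t : T3 c) : TRI c where
  herm h u v hh := ⟨taa_herm hh u v, thf_herm hh u v⟩
  com a u0 g h v hh hg := com_sep hg.1 hh.1 (sep_of hh.2.2 hg.2.2) v
  op a u0 y r X h u v hO hX hh := op_wdg t.toT2.toT1 u v hO hX hh
  fld f θ1 a u0 g hf hθ hg := by
    have k := fun j => Far.isTest_dc (Far.dc_pr (tst_wt (smooth_pol j) hf) hθ)
    refine ⟨fun j h _ => ?_, fun j h hh => ?_⟩
    · rw [Ctx.Th, Completion.inner_coe, Completion.inner_coe, thf_herm (k j), Far.bar_pr]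
    · rw [Ctx.Th, Completion.inner_coe, Completion.inner_coe, taa_herm hh.1,
        thf_herm (test_bar hg.1), bar_bar',
        (com_sep hg.1 (test_bar hh.1) (sep_of (in_bar hh).2.2 hg.2.2) _).2]
  opt f θ1 a a0 u0 y r X hf hθ sf sθ ha hO hX := by
    have k : ∀ j, In {z | al z < a0 ∧ -u0 < be z} (pr (wt (pol j) f) θ1) := fun j =>
      in_pr (tst_wt (smooth_pol j) hf) hθ ((tsupport_wt _ _).trans sf) sθ
    refine ⟨fun j h _ => ?_, fun j h hh => ?_⟩
    · have := (op_wdg t.toT2.toT1 (Taa c h c.Q.vac) c.Q.vac hO hX (k j)).1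
      rwa [Far.bar_pr] at this
    · have := (op_wdg t.toT2.toT1 (c.Thf (pr (wt (pol j) f) θ1) c.Q.vac) c.Q.vac hO hX
        (in_mono (in_bar hh) fun z hz => ⟨hz.1.trans_le ha, hz.2⟩)).2
      rw [bar_bar'] at this
      rw [star_inner]
      exact this

end Vale.Agent.P352X.CK
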