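import Vale.Agent.P352X.R.CONK.Spec
import Vale.Agent.P352X.Api3
import Vale.Agent.P352X.Api2

/-!
# P352X, row CK.norm: norms of vectors created by one field (helper34)
-/

set_option linter.all false

open MeasureTheory Filter Topology
open scoped SchwartzMap ComplexConjugate ENNReal ContDiff Real

namespace Vale.Agent.P352X.CK

open Vale.Agent.P352 Vale.Agent.P352.GF Vale.Agent.P352.BW Vale.Agent.P352.H246
open Vale.Agent.P352.H496 Vale.Agent.P352.H755 Vale.Agent.P352.H15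
open UniformSpace (Completion)
open Complex (I)

noncomputable section

namespace Norm

variable {g : P3 → ℂ} {φ : ℝ → ℂ}

lemma n2_nonneg {α : Type*} [MeasureSpace α] (f : α → ℂ) : 0 ≤ n2 f := Real.sqrt_nonneg _

lemma n2_sq {α : Type*} [MeasureSpace α] (f : α → ℂ) : n2 f ^ 2 = ∫ x, ‖f x‖ ^ 2 :=
  Real.sq_sqrt (integral_nonneg fun _ => sq_nonneg _)

lemma dc_da (hg : Dc g) : Dc (da g) := Ap.cs_fderiv _ hg

lemma dc_pf (hg : Dc g) (hφ : Dc φ) : Dc (pf g φ) :=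
  Ap.cs_hom plE.toHomeomorph plE.contDiff (Ap.cs_prod hg hφ)

lemma ft3_da (hg : Dc g) (k : P3) : ‖ft3 (da g) k‖ = |k.1| * ‖ft3 g k‖ := by
  obtain ⟨G, rfl⟩ := Ap.dc_sw hg
  rw [show ft3 (da G) k = _ from ft3_fd G (1, 0) k]
  simp

lemma ft1_der (hφ : Dc φ) (t : ℝ) : ‖ft1 (deriv φ) t‖ = |t| * ‖ft1 φ t‖ := by
  obtain ⟨G, rfl⟩ := Ap.dc_sw hφ
  rw [ft1_deriv]
  simp

lemma pl3 (hg : Dc g) :
    Integrable (fun k => ‖ft3 g k‖ ^ 2) ∧ ∫ k, ‖ft3 g k‖ ^ 2 = (2 * π) ^ 3 * n2 g ^ 2 := by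
  obtain ⟨G, rfl⟩ := Ap.dc_sw hg
  exact ⟨coe_ft3S G ▸ ((ft3S G).memLp 2 volume).integrable_norm_pow two_ne_zero,
    n2_sq (G : P3 → ℂ) ▸ ft3_plancherel_norm G⟩

lemma pl1 (hφ : Dc φ) :
    Integrable (fun t => ‖ft1 φ t‖ ^ 2) ∧ ∫ t, ‖ft1 φ t‖ ^ 2 = 2 * π * n2 φ ^ 2 := by
  obtain ⟨G, rfl⟩ := Ap.dc_sw hφ
  exact ⟨coe_ft1S G ▸ ((ft1S G).memLp 2 volume).integrable_norm_pow two_ne_zero,
    n2_sq (G : ℝ → ℂ) ▸ ft1_plancherel_norm G⟩

variable {D : Type*} [NormedAddCommGroup D] [InnerProductSpace ℂ D] {c : Ctx D}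

/-- the spectral measure of `T_aa(g φ) Ω` -/
theorem nu_le (h : TWO c) : ∃ C : ℝ, 0 ≤ C ∧ ∀ (g : P3 → ℂ) (φ : ℝ → ℂ) (A : Set ℝ) (v : ℝ → ℝ),
    Dc g → Dc φ → MeasurableSet A → Integrable v → (∀ t, 0 ≤ v t) →
    (∀ t ∈ A, 0 < t → ‖ft1 φ t‖ ^ 2 ≤ v t) → c.nu (c.Tv (hk va va (pf g φ))) (al ⁻¹' A) ≤
      ENNReal.ofReal (C * n2 (da (da g)) ^ 2 * ∫ t, v t) := by
  obtain ⟨C, C0, hC⟩ := h
  refine ⟨4 * C * (2 * π) ^ 3, by positivity, fun g φ A v hg hφ hA hv v0 hb => ?_⟩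
  obtain ⟨i1, i2⟩ := pl3 (dc_da (dc_da hg))
  have hS := meas_al hA
  refine (hC va va _ (Ap.dc_sw (dc_pf hg hφ)) _).trans ?_
  rw [withDensity_apply _ hS, Measure.restrict_restrict hS]
  calc _ ≤ ∫⁻ p in al ⁻¹' A ∩ Fc,
        ENNReal.ofReal ((4 * C * ‖ft3 (da (da g)) (pm p)‖ ^ 2) * v (al p)) := by
        refine setLIntegral_mono' (hS.inter meas_Fc) fun p hp => ENNReal.ofReal_le_ofReal ?_
        have := mul_le_mul_of_nonneg_left (hb _ hp.1 ((mem_Fc' p).1 hp.2).1)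
          (show 0 ≤ 4 * C * ‖ft3 (da (da g)) (pm p)‖ ^ 2 by positivity)
        refine le_trans (le_of_eq ?_) this
        rw [ft3_da (dc_da hg), ft3_da hg, ft_pf, nn_va, norm_mul]
        simp only [mul_pow, sq_abs, pm_1]
        ring
    _ ≤ _ := setLIntegral_le_lintegral _ _
    _ = _ := by
        rw [← ofReal_integral_eq_lintegral_ofReal (integrable_pm_al (i1.const_mul _) hv)
          (.of_forall fun p => mul_nonneg (by positivity) (v0 _)),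
          integral_pm_al (fun k => 4 * C * ‖ft3 (da (da g)) k‖ ^ 2), integral_const_mul, i2]
        congr 1
        ring

/-- the norm of `Θ(g φ) Ω` -/
theorem th_le (h : ELL c) : ∃ C : ℝ, 0 ≤ C ∧ ∀ (g : P3 → ℂ) (φ : ℝ → ℂ), Dc g → Dc φ →
    ‖c.Th (pf g φ)‖ ^ 2 ≤ C * (n2 (da g) * n2 (deriv φ)) ^ 2 := by
  obtain ⟨ell, c0, E⟩ := h
  have h0 := E.nonneg
  refine ⟨36 * c0 * (2 * π) ^ 4, by positivity, fun g φ hg hφ => ?_⟩
  have hF : IsTest (pf g φ) := Ap.dc_sw (dc_pf hg hφ)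
  obtain ⟨i1, i2⟩ := pl3 (dc_da hg)
  obtain ⟨j1, j2⟩ := pl1 (φ := deriv φ) (Ap.cs_deriv hφ)
  have mψ := memLp_mu_ft hF Fc
  have n := E.inn _ _ mψ mψ
  simp only [inner_self_eq_norm_sq_to_K, Complex.conj_mul', ← Complex.ofReal_pow,
    integral_complex_ofReal, ← Complex.ofReal_mul, Complex.coe_algebraMap,
    Complex.ofReal_inj] at n
  have iG := integrable_pm_al (i1.const_mul 4) j1
  have k1 : ∫ p in Fc, ‖(mu p : ℂ) * ft (pf g φ) p‖ ^ 2 ≤
      ∫ p in Fc, 4 * ‖ft3 (da g) (pm p)‖ ^ 2 * ‖ft1 (deriv φ) (al p)‖ ^ 2 := by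
    refine setIntegral_mono_on (mψ.integrable_norm_pow two_ne_zero) iG.restrict meas_Fc
      fun p hp => ?_
    have h1 := ((mem_Fc p).1 hp).2
    have h2 : mu p ≤ 2 * al p * be p := by linarith [mu_eq p, d2_nonneg (tx p)]
    rw [ft3_da hg, ft1_der hφ, ft_pf, norm_mul, norm_mul, Complex.norm_real,
      Real.norm_of_nonneg h1.le, mul_pow]
    refine (mul_le_mul_of_nonneg_right (pow_le_pow_left₀ h1.le h2 2) (sq_nonneg _)).trans_eq ?_
    simp only [mul_pow, sq_abs, pm_1]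
    ring
  have k2 := setIntegral_le_integral (s := Fc) iG (.of_forall fun p => by positivity)
  rw [integral_pm_al (fun k => 4 * ‖ft3 (da g) k‖ ^ 2) (fun t => ‖ft1 (deriv φ) t‖ ^ 2),
    integral_const_mul, i2, j2] at k2
  rw [E.th _ hF, norm_smul, mul_pow, n]
  have := mul_le_mul_of_nonneg_left (k1.trans k2) h0
  simp only [norm_neg, Complex.norm_ofNat]
  linarith

theorem norm_thm (h1 : TWO c) (h2 : ELL c) : NORM c := by
  obtain ⟨C1, a1, b1⟩ := nu_le h1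
  obtain ⟨C2, a2, b2⟩ := th_le h2
  set C := 2 * π * C1 + C1 + C2 + 1
  have p := Real.pi_pos
  have q : 0 ≤ 2 * π * C1 := by positivity
  have hC : 1 ≤ C := by simp only [C]; linarith
  have hC' : C ≤ C ^ 2 := by nlinarith
  refine ⟨C, by linarith, fun g φ hg hφ => ⟨?_, fun s hs => ?_, ?_⟩⟩
  · obtain ⟨j1, j2⟩ := pl1 hφ
    have := b1 g φ Set.univ _ hg hφ MeasurableSet.univ j1 (fun _ => sq_nonneg _) fun _ _ _ => le_rfl
    have n1 := n2_nonneg (da (da g))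
    have n3 := n2_nonneg φ
    rw [Set.preimage_univ, j2, ← ofReal_measureReal, c.bt.nu_univ,
      ENNReal.ofReal_le_ofReal_iff (by positivity)] at this
    refine abs_le_of_sq_le_sq' (this.trans ?_) (by positivity) |>.2
    have : 2 * π * C1 ≤ C ^ 2 := by simp only [C] at hC' ⊢; linarith
    calc _ = 2 * π * C1 * (n2 (da (da g)) * n2 φ) ^ 2 := by ring
      _ ≤ C ^ 2 * (n2 (da (da g)) * n2 φ) ^ 2 := by gcongr
      _ = _ := by ring
  · have := b1 g φ (Set.Iio s) ((Set.Ioo 0 s).indicator fun _ => (∫ t, ‖φ t‖) ^ 2) hg hφ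
      measurableSet_Iio ((integrable_indicator_iff measurableSet_Ioo).2 (integrableOn_const
        (by simp))) (fun t => Set.indicator_nonneg (fun _ _ => sq_nonneg _) t) fun t ht h0 => by
        rw [Set.indicator_of_mem (show t ∈ Set.Ioo 0 s from ⟨h0, ht⟩)]
        exact pow_le_pow_left₀ (norm_nonneg _) (norm_ft1_le φ t) 2
    refine this.trans (ENNReal.ofReal_le_ofReal ?_)
    rw [integral_indicator_const _ measurableSet_Ioo, Real.volume_real_Ioo_of_le hs.le, sub_zero,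
      smul_eq_mul]
    have : C1 ≤ C ^ 2 := by simp only [C] at hC' ⊢; linarith
    calc _ = C1 * ((n2 (da (da g)) * ∫ t, ‖φ t‖) ^ 2 * s) := by ring
      _ ≤ C ^ 2 * ((n2 (da (da g)) * ∫ t, ‖φ t‖) ^ 2 * s) := by gcongr
      _ = _ := by ring
  · have n1 := n2_nonneg (da g)
    have n3 := n2_nonneg (deriv φ)
    refine abs_le_of_sq_le_sq' ((b2 g φ hg hφ).trans ?_) (by positivity) |>.2
    have : C2 ≤ C ^ 2 := by simp only [C] at hC' ⊢; linarith
    calc _ ≤ C ^ 2 * (n2 (da g) * n2 (deriv φ)) ^ 2 := by gcongr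
      _ = _ := by ring

end Norm

theorem norm_row {D : Type*} [NormedAddCommGroup D] [InnerProductSpace ℂ D] (c : Ctx D) :
    T3 c → NORM c := fun h => Norm.norm_thm h.two h.ell

end

end Vale.Agent.P352X.CK
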