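import Vale.Agent.P352X.R.CONK.Spec
import Vale.Agent.P352X.R.GEN
import Vale.Agent.P352X.R.FAR
import Vale.Agent.P352X.R.KER
import Vale.Agent.P352X.Api1C

/-!
# P352X, block CONK, row LWF: bounds for the generators on vectors created by fields (helper76)
-/

set_option linter.all false

open MeasureTheory Filter Topology
open scoped SchwartzMap ComplexConjugate ENNReal ContDiff

namespace Vale.Agent.P352X.CK

open Vale.Agent.P352 Vale.Agent.P352.GF Vale.Agent.P352.BW Vale.Agent.P352.H246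
open Vale.Agent.P352.H496 Vale.Agent.P352.H755 Vale.Agent.P352.H15
open H148 (Od snS)
open UniformSpace (Completion)
open Complex (I)

noncomputable section

namespace Lwf

variable {D : Type*} [NormedAddCommGroup D] [InnerProductSpace ℂ D]

/-- an operator with a formal adjoint, applied to an operator valued distribution -/
theorem od_comp {R R' : D → D} {B B' : Fld D} (hR : Adj R R') (hB : Od B B') :
    Od (fun f v => R (B f v)) fun f w => B' f (R' w) where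
  lin f g a v hf hg := by rw [hB.lin _ _ _ _ hf hg, hR.add, hR.smul]
  cont v := by
    have := barrelled_schwartz
    let L : 𝓢(Mink, ℂ) →ₗ[ℂ] D :=
      { toFun := fun F => R (B (fl F) v)
        map_add' := fun F G => by rw [hB.addf, hR.add]
        map_smul' := fun a F => by rw [hB.smulf, hR.smul, RingHom.id_apply] }
    have hc : Continuous L := cont_of_weak L dense_univ fun z _ =>
      (continuous_const.inner (hB.contS v)).congr fun F => hR.symm z (B (fl F) v)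
    exact hc.comp ofSch.continuous
  adj f v w hf := by rw [hR, hB.adj _ _ _ hf]

theorem od_th (c : Ctx D) : Od c.Thf c.Thf where
  lin f g a v hf hg := by
    simp only [Ctx.Thf, GF.tr, (Gen.od c _ _).lin _ _ _ _ hf hg, smul_add, Finset.sum_add_distrib,
      Finset.smul_sum, smul_comm a]
  cont v := continuous_finset_sum (f := fun m g => (eta m : ℂ) • c.T m m (ev g) v) .univ
    fun m _ => ((Gen.od c m m).cont v).const_smul _
  adj f v w hf := by
    simp only [Ctx.Thf, GF.tr, sum_inner, inner_sum, inner_smul_left, inner_smul_right,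
      Complex.conj_ofReal, (Gen.od c _ _).adj _ _ _ hf]

theorem snS_le (k : ℕ) : ∃ (m : ℕ) (C : ℝ), 0 ≤ C ∧ ∀ f : Sch, snS k (ofSch f) ≤ C * sn m f :=
  Lie.clm ((snS k).comp ofSch.toLinearMap) ((H148.cont_snS _).comp ofSch.continuous)

theorem bd1 {B B' : Fld D} (hB : Od B B') (v : D) :
    ∃ (m : ℕ) (C : ℝ), 0 ≤ C ∧ ∀ f : Sch, ‖B (ev f) v‖ ≤ C * sn m f :=
  let L : Sch →ₗ[ℂ] D :=
    { toFun := fun f => B (fl (ofSch f)) v
      map_add' := fun F G => by rw [map_add, hB.addf]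
      map_smul' := fun a F => by rw [map_smul, hB.smulf, RingHom.id_apply] }
  Lie.clm ((normSeminorm ℂ D).comp L) (hB.cont v).norm

theorem bd2 {B B' E E' : Fld D} (hB : Od B B') (hE : Od E E') (v : D) : ∃ (m : ℕ) (C : ℝ), 0 ≤ C ∧
    ∀ q : Sch × Sch, ‖B (ev q.1) (E (ev q.2) v)‖ ≤ C * (sn m q.1 * sn m q.2) := by
  obtain ⟨K, k, K0, h⟩ := hB.joint hE v
  obtain ⟨m, C, C0, hC⟩ := snS_le k
  refine ⟨m, K * C * C, by positivity, fun q => (h (ofSch q.1) (ofSch q.2)).trans ?_⟩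
  have := Lie.sn_nonneg m q.1
  calc _ ≤ K * (C * sn m q.1) * (C * sn m q.2) := by
        gcongr
        exacts [hC _, hC _]
    _ = _ := by ring

/-- families of vectors with bounds for all operators that have a formal adjoint -/
structure Fm {ι : Type} (v : ι → D) (s : ℕ → ι → ℝ) : Prop where
  nn : ∀ m i, 0 ≤ s m i
  mono : ∀ m n i, m ≤ n → s m i ≤ s n i
  bd : ∀ R R', Adj R R' → ∃ (m : ℕ) (C : ℝ), 0 ≤ C ∧ ∀ i, ‖R (v i)‖ ≤ C * s m i

theorem fm1 (c : Ctx D) : Fm (fun g : Sch => c.Thf (ev g) c.Q.vac) sn :=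
  ⟨Lie.sn_nonneg, fun _ _ g h => Lie.sn_mono h g, fun _ _ h => bd1 (od_comp h (od_th c)) _⟩

theorem fm2 (c : Ctx D) : Fm (fun q : Sch × Sch => c.Thf (ev q.1) (c.Thf (ev q.2) c.Q.vac))
    fun m q => sn m q.1 * sn m q.2 :=
  ⟨fun m q => mul_nonneg (Lie.sn_nonneg _ _) (Lie.sn_nonneg _ _), fun _ _ q h =>
    mul_le_mul (Lie.sn_mono h _) (Lie.sn_mono h _) (Lie.sn_nonneg _ _) (Lie.sn_nonneg _ _),
    fun _ _ h => bd2 (od_comp h (od_th c)) (od_th c) _⟩

theorem Fm.fin {ι : Type} {v : ι → D} {s : ℕ → ι → ℝ} (h : Fm v s) {κ : Type} [Fintype κ]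
    (R : κ → D → D) (hR : ∀ j, ∃ R', Adj (R j) R') :
    ∃ (m : ℕ) (C : ℝ), 0 ≤ C ∧ ∀ j i, ‖R j (v i)‖ ≤ C * s m i := by
  choose m C C0 hC using fun j => h.bd _ _ (hR j).choose_spec
  refine ⟨Finset.univ.sup m, ∑ j, C j, Finset.sum_nonneg fun j _ => C0 j, fun j i => ?_⟩
  exact (hC j i).trans (mul_le_mul (Finset.single_le_sum (fun j _ => C0 j) (Finset.mem_univ j))
    (h.mono _ _ _ (Finset.le_sup (Finset.mem_univ j))) (h.nn _ _)
    (Finset.sum_nonneg fun j _ => C0 j))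

variable {c : Ctx D}

/-- the generator leaves the domain invariant and is symmetric there -/
theorem ex_gen {W X} (K : Gen.Fl c W X) (g : GRP c) (u : UG W) :
    ∃ A : D → D, Adj A A ∧ ∀ v : D, Gn W (v : Completion D) (A v : D) := by
  have h : ∀ v : D, Gn W (v : Completion D) (c.A X v : D) := fun v => by
    have := K.dom g v
    rwa [Completion.coe_smul] at this
  refine ⟨_, fun v w => ?_, h⟩
  simpa only [Completion.inner_coe] using (u.symm (h v) (h w)).symm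

theorem adj_id : Adj (id : D → D) id := fun _ _ => rfl

theorem adj_iter {A : D → D} (h : Adj A A) (j : ℕ) : ∃ R', Adj A^[j] R' := by
  induction j with
  | zero => exact ⟨_, adj_id⟩
  | succ j ih => exact ⟨_, ih.choose_spec.comp h⟩

theorem Fm.lw {ι : Type} {v : ι → D} {s : ℕ → ι → ℝ} (h : Fm v s) (g : GRP c) :
    ∃ (m : ℕ) (C : ℝ), 0 ≤ C ∧ ∀ i, Lw c (v i : D) (C * s m i) := by
  obtain ⟨P, aP, hP⟩ := ex_gen (Gen.fl_ut c vb) g g.ugPb
  obtain ⟨G, aG, hG⟩ := ex_gen (Gen.fl_gb g) g g.ugGb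
  replace hP : ∀ v : D, Gn (Pb c.Q) (v : Completion D) (P v : D) := hP
  obtain ⟨m, C, C0, hC⟩ := h.fin ![id, G, P, fun v => G (P v)] fun j => by
    fin_cases j
    exacts [⟨_, adj_id⟩, ⟨_, aG⟩, ⟨_, aP⟩, ⟨_, aG.comp aP⟩]
  refine ⟨m, C, C0, fun i => ⟨(hG _).dm, (hP _).dm, ?_, ?_, ?_, ?_, ?_⟩⟩ <;>
    simp only [(hP _).gen_eq, (hG _).gen_eq, Completion.norm_coe]
  exacts [(hG _).dm, hC 0 i, hC 1 i, hC 2 i, hC 3 i]

theorem Fm.pk {ι : Type} {v : ι → D} {s : ℕ → ι → ℝ} (h : Fm v s) (g : GRP c) (k : ℕ) :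
    ∃ (m : ℕ) (C : ℝ), 0 ≤ C ∧ ∀ i, Pk c k (v i : D) (C * s m i) := by
  obtain ⟨P, aP, hP⟩ := ex_gen (Gen.fl_ut c vb) g g.ugPb
  replace hP : ∀ v : D, Gn (Pb c.Q) (v : Completion D) (P v : D) := hP
  have e : ∀ j (v : D), (gen (Pb c.Q))^[j] v = (P^[j] v : D) := fun j => by
    induction j with
    | zero => exact fun _ => rfl
    | succ j ih => exact fun v => by rw [Function.iterate_succ_apply, (hP _).gen_eq, ih]; rfl
  obtain ⟨m, C, C0, hC⟩ := h.fin (fun j : Fin (k + 1) => P^[j]) fun j => adj_iter aP j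
  refine ⟨m, C, C0, fun i => ⟨fun j _ => e j _ ▸ (hP _).dm, fun j hj => ?_⟩⟩
  rw [e, Completion.norm_coe]
  exact hC ⟨j, Nat.lt_succ_of_le hj⟩ i

theorem thin (f : P3 → ℝ) (θ1 θ : ℝ → ℝ) (m : ℕ) (hf : Tst f) (h1 : Tst θ1) (hθ : Tst θ) :
    ∃ C : ℝ, 0 ≤ C ∧ ∀ δ, 0 < δ → δ ≤ 1 →
      ∃ g : Sch, ev g = pr f (thn θ1 θ δ) ∧ sn m g ≤ C * δ⁻¹ ^ m := by
  have b := ST.bd_sch (sch (cx θ)) (Nat.zero_le m) le_rfl
  have dθ : Dc (cx θ) :=
    ⟨Complex.ofRealCLM.contDiff.comp hθ.1, hθ.2.comp_left (g := fun x : ℝ => (x : ℂ)) (by simp)⟩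
  set A := ST.sn ℝ ℂ m (sch (cx θ))
  have A0 : 0 ≤ A := apply_nonneg _ _
  set G : Sch := sch (pr f θ1)
  have G0 : 0 ≤ ST.sn V ℂ m G := apply_nonneg _ _
  refine ⟨2 ^ m * 2 ^ m * ((1 + ‖beL‖) ^ m * (2 ^ m * A)) * ST.sn V ℂ m G, by positivity,
    fun δ h0 hδ => ?_⟩
  have t : Tst (thn θ1 θ δ) := ⟨h1.1.mul (hθ.1.comp (contDiff_id.div_const δ)), h1.2.mul_right⟩
  refine ⟨sch (pr f (thn θ1 θ δ)), Far.sch_coe (Far.dc_pr hf t), ?_⟩
  have d1 : 1 ≤ δ⁻¹ := (one_le_inv₀ h0).2 hδ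
  have n := norm_nonneg beL
  have u := b.comp (δ⁻¹ • beL) (M := δ⁻¹ * (1 + ‖beL‖)) (by nlinarith) (by
    rw [norm_smul, Real.norm_of_nonneg (by positivity)]
    gcongr
    linarith)
  rw [sn_eq]
  refine (ST.sn_mul (l := 0) (A := (δ⁻¹ * (1 + ‖beL‖)) ^ m * (2 ^ m * A))
    (by simpa using u) G _ fun z => ?_).trans_eq (by rw [add_zero, mul_pow]; ring)
  simp only [G, Far.sch_apply (Far.dc_pr hf t), Far.sch_apply (Far.dc_pr hf h1), Far.sch_apply dθ,
    pr, thn, cx, div_eq_inv_mul]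
  push_cast
  ring

end Lwf

open Lwf

theorem lwf_row {D : Type*} [NormedAddCommGroup D] [InnerProductSpace ℂ D] (c : Ctx D)
    (t : T3 c) : LWF c where
  one := (fm1 c).lw t.grp
  pk := (fm1 c).pk t.grp
  two := let ⟨m, C, C0, h⟩ := (fm2 c).lw t.grp
    ⟨m, C, C0, fun f g => mul_assoc C _ _ ▸ h (f, g)⟩
  thin := thin

end

end Vale.Agent.P352X.CK
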