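import Vale.Agent.P352X.R.CONK.A3.A

/-!
# P352X, block CONK, row A3: the far tubes
-/

set_option linter.all false

open MeasureTheory Filter Topology Set
open scoped ContDiff SchwartzMap FourierTransform

namespace Vale.Agent.P352X.CK

open Vale.Agent.P352 Vale.Agent.P352.GF Vale.Agent.P352.BW Vale.Agent.P352.H246
open Vale.Agent.P352.H496 Vale.Agent.P352.H755
open UniformSpace (Completion)

noncomputable section

namespace A3p

theorem sup_U2 {W : R2 → ℝ} {g f : P3 → ℝ} {ρ φ : ℝ → ℝ} {δ A c0 R : ℝ} (hW : ContDiff ℝ ∞ W)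
    (hg : Tst g) (hf : Tst f) (hρ : Tst ρ) (hφ : Tst φ) (hδ : 0 < δ) (hA : 0 < A)
    (sg : tsupport g ⊆ {y | y.1 ≤ -c0}) (hR : ∀ y ∈ tsupport f, ‖y‖ ≤ R) (h : R < c0 * A) :
    tsupport (pairF W g f ρ φ δ A) ⊆ U2 := fun z hz => by
  have k := tsupport_pair hW hg hf hρ hφ hδ hA hz
  refine Far.late_iff.2 ?_
  rintro _ rfl _ rfl a1 -
  have b1 : al z.1 / A ≤ -c0 := sg k.1.1
  have b2 : |al z.2| ≤ R := (norm_fst_le (pl z.2)).trans (hR _ k.2.1)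
  rw [div_le_iff₀ hA] at b1
  linarith [neg_abs_le (al z.2)]

theorem sup_kL {p : R2 → ℝ} {g : P3 → ℝ} {A c0 a : ℝ} (hA : 0 < A)
    (sg : tsupport g ⊆ {y | y.1 ≤ -c0}) (h : -a < c0 * A) :
    tsupport (wt p (kL g A)) ⊆ {y | y.1 < a} := fun y hy => by
  have b1 : y.1 / A ≤ -c0 := sg (Ap.tsupport_kL g A (tsupport_wt _ _ hy))
  rw [div_le_iff₀ hA] at b1
  change y.1 < a
  linarith

variable {D : Type*} [NormedAddCommGroup D] [InnerProductSpace ℂ D] {c : Ctx D}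
  {w W : I2 → I2 → S2 →L[ℂ] Completion D} {κ f g : P3 → ℝ} {ρ θ1 θ : ℝ → ℝ} {a0 u0 c0 : ℝ}
  {X : Completion D →L[ℂ] Completion D}

/-- the bound that is good for thin tubes -/
theorem thin_le (t : Tools c) (d : Dat c w W κ f ρ θ1 θ a0 u0) (x : RX c a0 u0 X) (hg : Tst g)
    (sg : tsupport g ⊆ {y | y.1 ≤ -c0}) {R : ℝ} (R0 : 0 < R) (hR : ∀ y ∈ tsupport f, ‖y‖ ≤ R) :
    ∃ C, 0 ≤ C ∧ ∀ δ A, 0 < δ → δ ≤ 1 → δ ≤ u0 → 1 ≤ A → R + 1 ≤ c0 * A →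
    ‖inner ℂ ((w0L w - w1L W) (pairF sq2 g f ρ (thn θ1 θ δ) δ A)) (X c.Om)‖ ≤
      C * (max 1 (Real.sqrt (δ * A)) / Real.sqrt A) := by
  obtain ⟨y, r, -, hO, hX⟩ := x.loc
  obtain ⟨m, hm, tb⟩ := t.ann.tube g f θ hg d.tf d.bump.1
  obtain ⟨R1, R10, hR1⟩ := ex_R hm
  obtain ⟨u, hu, -, u1, -⟩ := Ap.ex_chi (isCompact_closedBall (0 : R2) (R1 + R)) isOpen_univ
    (subset_univ _)
  obtain ⟨C, C0, hC⟩ := com_le t
  obtain ⟨C1, C10, h1⟩ := n2_plane hg hu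
  obtain ⟨C2, C20, h2⟩ := n2_dlt d.tr
  obtain ⟨C3, C30, h3⟩ := n2_thn d.t1 d.bump.1
  let e := EuclideanSpace.equiv (Fin 2) ℝ
  have hm2 : Dc fun ξ => ((sq2 (e ξ) * m (e ξ) : ℝ) : ℂ) :=
    Ap.cs_cle e (Ap.dc_cx (Ap.cs_mul_l smooth_sq2 hm))
  set m2 := sch fun ξ => ((sq2 (e ξ) * m (e ξ) : ℝ) : ℂ) with hm2d
  have I0 : 0 ≤ ∫ ξ, ‖(𝓕 m2 : 𝓢(_, ℂ)) ξ‖ := integral_nonneg fun _ => norm_nonneg _
  have := n2_nonneg (cx (dR f))
  refine ⟨(∫ ξ, ‖(𝓕 m2 : 𝓢(_, ℂ)) ξ‖) * (C * ‖X‖ * (C1 * C2) * (n2 (cx (dR f)) * C3)),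
    by positivity, fun δ A δ0 δ1 δu A1 hA => ?_⟩
  have A0 : 0 < A := one_pos.trans_le A1
  have ha := d.ha
  set s := Real.sqrt (δ * A) with hs
  have s0 : 0 < s := Real.sqrt_pos.2 (mul_pos δ0 A0)
  have s1 : 0 < max 1 s := lt_max_of_lt_left one_pos
  have ht := tst_thn d.t1 d.bump.1.1 δ
  have hd := tst_dlt d.tr δ0
  have sρ : tsupport ρ ⊆ Set.Icc (-1) 1 := d.sr.trans (Icc_subset_Icc (by norm_num) (by norm_num))
  have us : ContDiff ℝ ∞ fun x => u ((max 1 s)⁻¹ • x) := hu.1.comp (contDiff_const_smul _)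
  have hG := tst_wt us (Ap.tst_kL hg A0)
  set G := wt (fun x => u ((max 1 s)⁻¹ • x)) (kL g A) with hGd
  have e1 : (w0L w - w1L W) (pairF sq2 g f ρ (thn θ1 θ δ) δ A) =
      (w0L W - w1L W) (pairF (sqm m s) g f ρ (thn θ1 θ δ) δ A) := by
    have k1 := t.cv.late w W _ d.tp d.isW (tb ρ θ1 δ A d.tr sρ d.t1 δ0 A1)
    have k2 := t.cv.early w W _ d.tp d.isW
      (sup_U2 (smooth_sqm hm.1 s) hg d.tf d.tr ht δ0 A0 sg hR (by linarith))
    rw [map_sub, map_sub] at k1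
    rw [ContinuousLinearMap.sub_apply, ContinuousLinearMap.sub_apply, ← k2,
      sub_eq_sub_iff_sub_eq_sub, k1]
  let l0 : R2 →L[ℝ] EuclideanSpace ℝ (Fin 2) := s⁻¹ • (e.symm : R2 →L[ℝ] EuclideanSpace ℝ (Fin 2))
  let l : V × V →L[ℝ] EuclideanSpace ℝ (Fin 2) :=
    l0 ∘L (txL ∘L ContinuousLinearMap.fst ℝ V V - txL ∘L ContinuousLinearMap.snd ℝ V V)
  let H : S2 := ST.tens (sch (pr G (dlt δ ρ))) (sch (pr f (thn θ1 θ δ)))
  have hH : ∀ z, H z = pr G (dlt δ ρ) z.1 * pr f (thn θ1 θ δ) z.2 := fun z => by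
    rw [ST.tens_apply, Ap.sch_dc (Far.dc_pr hG hd), Ap.sch_dc (Far.dc_pr d.tf ht)]
  obtain ⟨-, e2⟩ := ST.syn m2 l (((δ * A : ℝ) : ℂ) • H) (pairF (sqm m s) g f ρ (thn θ1 θ δ) δ A)
    (fun z => by
      have k : e (l z) = s⁻¹ • (tx z.1 - tx z.2) := rfl
      rw [pair_apply (smooth_sqm hm.1 s) hg d.tf d.tr ht δ0 A0, SchwartzMap.smul_apply, hH,
        Ap.sch_dc hm2, k, smul_eq_mul]
      simp only [pfun, pr, ← Complex.ofReal_mul, sqm, sq2, d2_smul, d2_smul_l, hGd, wt]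
      congr 1
      rw [← Real.mul_self_sqrt (mul_pos δ0 A0).le, ← hs]
      by_cases k1 : m (s⁻¹ • (tx z.1 - tx z.2)) = 0
      · simp [k1]
      by_cases k2 : f (pl z.2) = 0
      · simp [k2]
      have b1 := hR1 _ (subset_tsupport _ k1)
      have b2 : ‖tx z.2‖ ≤ R := (norm_snd_le (pl z.2)).trans (hR _ (subset_tsupport _ k2))
      rw [norm_smul, norm_inv, Real.norm_of_nonneg s0.le, inv_mul_le_iff₀ s0] at b1
      rw [show u ((max 1 s)⁻¹ • (pl z.1).2) = 1 from (u1 _ ?_).self_of_nhds]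
      · field_simp
      · rw [mem_closedBall_zero_iff, norm_smul, norm_inv, Real.norm_of_nonneg s1.le,
          inv_mul_le_iff₀ s1]
        have := norm_le_norm_sub_add (tx z.1) (tx z.2)
        change ‖tx z.1‖ ≤ _
        nlinarith [le_max_left 1 s, le_max_right 1 s])
    ((innerSL ℂ (X c.Om)).comp (w0L W - w1L W))
  rw [e1, norm_inner_symm]
  refine (congrArg norm e2).trans_le ((norm_integral_le_of_norm_le (g := fun ξ =>
    ‖(𝓕 m2 : 𝓢(_, ℂ)) ξ‖ * (C * ‖X‖ * (C1 * C2) * (n2 (cx (dR f)) * C3) *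
      (max 1 s / Real.sqrt A))) ((𝓕 m2 : 𝓢(_, ℂ)).integrable.norm.mul_const _)
    (.of_forall fun ξ => ?_)).trans_eq (by rw [integral_mul_const]; ring))
  rw [norm_smul, map_smul, map_smul, norm_smul, Complex.norm_real,
    Real.norm_of_nonneg (mul_pos δ0 A0).le]
  refine mul_le_mul_of_nonneg_left ?_ (norm_nonneg _)
  have k := hC W a0 u0 y r X G f (dlt δ ρ) (thn θ1 θ δ) (ST.frq l0 ξ) (-ST.frq l0 ξ)
    (ST.mdl (ST.frq l ξ) H) d.isW (fun z hz => ⟨(hO hz).1, by linarith [(hO hz).2]⟩) hX hG d.tf hd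
    ht (sup_kL A0 sg (by linarith)) d.sf
    (fun t h => mem_Ioi.2 (by linarith [(Ap.tsupport_dlt_Icc d.sr δ0 h).1]))
    (fun t h => d.s1 (tsupport_thn _ _ _ h).1) fun x y => by
      have k : ST.frq l ξ (x, y) = ST.frq l0 ξ (tx x - tx y) := rfl
      rw [ST.mdl_apply, hH]
      simp only [ST.pw, k, map_sub, pf, md, pr, cx, pl, ContinuousLinearMap.neg_apply]
      push_cast
      rw [mul_sub, sub_eq_add_neg, Complex.exp_add, mul_neg]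
      ring
  refine (mul_le_mul_of_nonneg_left k (mul_pos δ0 A0).le).trans ?_
  have := n2_nonneg (cx (dlt δ ρ))
  have := n2_nonneg (cx (deriv (thn θ1 θ δ)))
  have q1 := Real.sqrt_pos.2 δ0
  have q2 := Real.sqrt_pos.2 A0
  calc _ ≤ δ * A * (C * ‖X‖ * (C1 * (max 1 s * Real.sqrt A / A ^ 2) * (C2 / Real.sqrt δ)) *
        (n2 (cx (dR f)) * (C3 / Real.sqrt δ))) := by
        gcongr
        exacts [h1 A _ A0 s1, h2 δ δ0, h3 δ δ0 δ1]
    _ = _ := by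
        field_simp
        rw [Real.sq_sqrt δ0.le, Real.sq_sqrt A0.le]
        ring

/-- the bound that is good for far tubes -/
theorem far_le (t : Tools c) (d : Dat c w W κ f ρ θ1 θ a0 u0) (x : RX c a0 u0 X) (hg : Tst g)
    (sg : tsupport g ⊆ {y | y.1 ≤ -c0}) {R : ℝ} (R0 : 0 < R) (hR : ∀ y ∈ tsupport f, ‖y‖ ≤ R) :
    ∃ (C σ : ℝ) (m : ℕ), 0 ≤ C ∧ 0 < σ ∧ ∀ δ A, 0 < δ → δ ≤ 1 → δ ≤ u0 → 1 ≤ A → R + 1 ≤ c0 * A →
    ‖inner ℂ ((w0L w - w1L W) (pairF sq2 g f ρ (thn θ1 θ δ) δ A)) (X c.Om)‖ ≤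
      C * (δ⁻¹ ^ m * A ^ (-σ)) := by
  obtain ⟨y, r, -, hO, hX⟩ := x.loc
  obtain ⟨σ, σ0, ht⟩ := Ub.tailq t.tail
  obtain ⟨C, C0, hC⟩ := ht g hg
  obtain ⟨m, C1, C10, h1⟩ := t.lwf.one
  choose C2 C20 h2 using fun j => t.lwf.thin _ θ1 θ m (tst_wt (smooth_pol j) d.tf) d.t1 d.bump.1
  obtain ⟨C3, C30, h3⟩ := t.smv.lwx X x.good
  obtain ⟨C4, C40, h4⟩ := t.smv.lwx _ (t.smv.adj X x.good)
  have r0 : 0 ≤ ∫ t, |ρ t| := integral_nonneg fun t => abs_nonneg _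
  refine ⟨∑ j, C * (∫ t, |ρ t|) * ((C3 + C4) * (C1 * C2 j)), σ, m,
    Finset.sum_nonneg fun j _ => by have := C20 j; positivity, σ0, fun δ A δ0 δ1 δu A1 hA => ?_⟩
  have A0 : 0 < A := one_pos.trans_le A1
  have ha := d.ha
  have hθ := tst_thn d.t1 d.bump.1.1 δ
  have td := tst_dlt d.tr δ0
  have sd := Ap.tsupport_dlt_Icc d.sr δ0
  have sd' : tsupport (dlt δ ρ) ⊆ Set.Icc (-1) 1 :=
    sd.trans (Set.Icc_subset_Icc (by linarith) (by linarith))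
  have id : ∫ t, |dlt δ ρ t| = ∫ t, |ρ t| := by
    simp only [Ap.abs_dlt δ0, Ap.integral_dlt δ0]
  have tri := t.tri.opt f (thn θ1 θ δ) 1 a0 u0 y r X d.tf hθ d.sf
    (fun t h => d.s1 (tsupport_thn _ _ _ h).1) ha.ge
    (fun z hz => ⟨(hO hz).1, by linarith [(hO hz).2]⟩) hX
  obtain ⟨p1, p2⟩ := t.cv.pair W _ _ _ _ _ _ d.isW hg d.tf d.tr hθ δ0 A0
  rw [ContinuousLinearMap.sub_apply, t.cv.early w W _ d.tp d.isW
    (sup_U2 smooth_sq2 hg d.tf d.tr hθ δ0 A0 sg hR (by linarith)), p1, p2,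
    ← Finset.sum_sub_distrib, sum_inner, Finset.sum_mul]
  refine norm_sum_le_of_le _ fun j _ => ?_
  have tq := tst_wt (smooth_qol j) (Ap.tst_kL hg A0)
  obtain ⟨G, e, hG⟩ := h2 j δ δ0 δ1
  have lw := h1 G
  rw [e] at lw
  rw [inner_sub_left, tri.right j _ (Ap.in_pr tq td fun _ _ _ => trivial),
    tri.left j _ (Ap.in_pr tq td fun z k1 k2 =>
      ⟨sup_kL (a := -1) A0 sg (by linarith) k1, by linarith [(sd k2).1]⟩), Ap.bar_pr]
  refine (norm_sub_le _ _).trans ?_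
  rw [norm_inner_symm]
  have k1 := hC j _ A _ _ td sd' A1 (h3 _ _ lw)
  have k2 := hC j _ A _ _ td sd' A1 (h4 _ _ lw)
  rw [id] at k1 k2
  have : 0 ≤ A ^ (-σ) := by positivity
  calc _ ≤ C * A ^ (-σ) * (∫ t, |ρ t|) * ((C3 + C4) * (C1 * sn m G)) := by linarith
    _ ≤ C * A ^ (-σ) * (∫ t, |ρ t|) * ((C3 + C4) * (C1 * (C2 j * δ⁻¹ ^ m))) := by gcongr
    _ = _ := by ring

end A3p

open A3p

theorem a3_row {D : Type*} [NormedAddCommGroup D] [InnerProductSpace ℂ D] (c : Ctx D)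
    (t : Tools c) : A3 c := by
  intro w W κ f ρ θ1 θ a0 u0 X g c0 d x hg c00 sg
  obtain ⟨R, R0, hR⟩ := ex_R d.tf
  obtain ⟨C1, C10, h1⟩ := thin_le t d x hg sg R0 hR
  obtain ⟨C2, σ, m, C20, σ0, h2⟩ := far_le t d x hg sg R0 hR
  set τ := min (1 / 2) (σ / (2 * m + 1)) with hτ
  have τ0 : 0 < τ := lt_min (by norm_num) (by positivity)
  have τ1 : τ ≤ 1 / 2 := min_le_left _ _
  have τ2 : τ * (2 * m + 1) ≤ σ := (le_div_iff₀ (by positivity)).1 (min_le_right _ _)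
  refine ⟨C1 + C2, τ, (R + 1) / c0 + 1, min 1 u0, τ0, lt_min one_pos d.hu, fun δ A δ0 hδ hA => ?_⟩
  obtain ⟨δ1, δu⟩ := le_min_iff.1 hδ
  have A1 : 1 ≤ A := le_trans (le_add_of_nonneg_left (by positivity)) hA
  have A0 : 0 < A := one_pos.trans_le A1
  have A2 : R + 1 ≤ c0 * A := (div_le_iff₀' c00).1 (by linarith)
  have p0 : 0 < A ^ (-τ) := by positivity
  rcases le_total δ ((A ^ (-τ)) ^ 2) with h | h
  · refine (h1 δ A δ0 δ1 δu A1 A2).trans (mul_le_mul (by linarith) ?_ (by positivity) (by positivity))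
    have q := Real.sqrt_pos.2 A0
    rw [div_le_iff₀ q]
    refine max_le ?_ ?_
    · rw [Real.sqrt_eq_rpow, ← Real.rpow_add A0]
      exact Real.one_le_rpow A1 (by linarith)
    · rw [Real.sqrt_mul δ0.le]
      exact mul_le_mul_of_nonneg_right (Real.sqrt_le_iff.2 ⟨p0.le, h⟩) q.le
  · refine (h2 δ A δ0 δ1 δu A1 A2).trans (mul_le_mul (by linarith) ?_ (by positivity) (by positivity))
    calc _ ≤ ((A ^ (-τ)) ^ 2)⁻¹ ^ m * A ^ (-σ) := by gcongr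
      _ = A ^ (τ * (2 * m) - σ) := by
        rw [← inv_pow, ← pow_mul, ← Real.rpow_neg A0.le, neg_neg, ← Real.rpow_mul_natCast A0.le,
          ← Real.rpow_add A0]
        push_cast
        rfl
      _ ≤ _ := Real.rpow_le_rpow_of_exponent_le A1 (by linarith)

end

end Vale.Agent.P352X.CK
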