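import Vale.Agent.P352X.R.CONK.Spec
import Vale.Agent.P352X.Api2c

/-!
# P352X, block CONK: row AA (helper71)
-/

set_option linter.all false

open MeasureTheory Filter Topology
open scoped SchwartzMap ComplexConjugate ENNReal ContDiff

namespace Vale.Agent.P352X.CK

open Vale.Agent.P352 Vale.Agent.P352.GF Vale.Agent.P352.BW Vale.Agent.P352.H246
open Vale.Agent.P352.H496 Vale.Agent.P352.H755 Vale.Agent.P352.H15
open UniformSpace (Completion)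
open Complex (I)

noncomputable section

namespace Aa

variable {W : R2 → ℝ} {κ f : P3 → ℝ} {ρ θ1 θ : ℝ → ℝ} {δ L : ℝ}

lemma smooth_sq : ContDiff ℝ ∞ sq2 := smooth_d2 contDiff_id contDiff_id

lemma tst_thn (h1 : Tst θ1) (h : Tst θ) (δ : ℝ) : Tst (thn θ1 θ δ) :=
  Ap.cs_mul_r h1 (Ap.smooth_dil h.1 δ)

lemma supp_thn (θ1 θ : ℝ → ℝ) (δ : ℝ) : tsupport (thn θ1 θ δ) ⊆ tsupport θ1 :=
  tsupport_mul_subset_left

/-- above, thin, below -/
lemma pair_split (hW : ContDiff ℝ ∞ W) (hκ : Tst κ) (hf : Tst f) (hρ : Tst ρ) (h1 : Tst θ1)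
    (h : Bump θ) (hδ : 0 < δ) (hL : 0 < L) : pairF W κ f ρ θ1 δ L =
      pairF W κ f ρ (abv θ1 θ δ) δ L + pairF W κ f ρ (thn θ1 θ δ) δ L +
        pairF W κ f ρ (blw θ1 θ δ) δ L := by
  ext z
  rw [SchwartzMap.add_apply, SchwartzMap.add_apply, Ap.pairF_apply hW hκ hf hρ h1 hδ.ne' hL,
    Ap.pairF_apply hW hκ hf hρ (Ap.tst_abv h1 h hδ) hδ.ne' hL,
    Ap.pairF_apply hW hκ hf hρ (tst_thn h1 h.1 δ) hδ.ne' hL,
    Ap.pairF_apply hW hκ hf hρ (Ap.tst_blw h1 h hδ) hδ.ne' hL, Ap.abv_split h θ1 δ (be z.2), thn]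
  push_cast
  ring

lemma pair_add {g g' : P3 → ℝ} (hW : ContDiff ℝ ∞ W) (hκ : Tst κ) (hg : Tst g) (hg' : Tst g')
    (e : ∀ y, κ y = g y + g' y) (hf : Tst f) (hρ : Tst ρ) (h1 : Tst θ1) (hδ : 0 < δ) (hL : 0 < L) :
    pairF W κ f ρ θ1 δ L = pairF W g f ρ θ1 δ L + pairF W g' f ρ θ1 δ L := by
  ext z
  rw [SchwartzMap.add_apply, Ap.pairF_apply hW hκ hf hρ h1 hδ.ne' hL,
    Ap.pairF_apply hW hg hf hρ h1 hδ.ne' hL, Ap.pairF_apply hW hg' hf hρ h1 hδ.ne' hL]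
  simp only [kL, e]
  push_cast
  ring

lemma supp_pair (hW : ContDiff ℝ ∞ W) (hκ : Tst κ) (hf : Tst f) (hρ : Tst ρ) (h1 : Tst θ1)
    (hδ : 0 < δ) (hL : 0 < L) : tsupport (pairF W κ f ρ θ1 δ L) ⊆
      {z | be z.1 ∈ tsupport (dlt δ ρ) ∧ be z.2 ∈ tsupport θ1} := by
  refine Ap.tsupp_sub (((isClosed_tsupport _).preimage (by fun_prop)).inter
    ((isClosed_tsupport _).preimage (by fun_prop))) fun z hz => ?_
  rw [Ap.pairF_apply hW hκ hf hρ h1 hδ.ne' hL, Complex.ofReal_ne_zero] at hz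
  exact ⟨subset_tsupport _ (right_ne_zero_of_mul (right_ne_zero_of_mul (left_ne_zero_of_mul hz))),
    subset_tsupport _ (right_ne_zero_of_mul (right_ne_zero_of_mul hz))⟩

lemma u1_of {z : V × V} (h : be z.2 < be z.1) : z ∈ U1 := by
  rintro x rfl y rfl k
  have := ((cone_iff _).1 k).2.1
  rw [be_sub] at this
  linarith

lemma supp_blw (hW : ContDiff ℝ ∞ W) (hκ : Tst κ) (hf : Tst f) (hρ : Tst ρ)
    (sρ : tsupport ρ ⊆ Set.Icc (-1 / 2) (1 / 2)) (h1 : Tst θ1) (h : Bump θ) (hδ : 0 < δ)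
    (hL : 0 < L) : tsupport (pairF W κ f ρ (blw θ1 θ δ) δ L) ⊆ U1 := fun z hz => by
  obtain ⟨a, b⟩ := supp_pair hW hκ hf hρ (Ap.tst_blw h1 h hδ) hδ hL hz
  have a1 := (Ap.tsupport_dlt_Icc sρ hδ a).1
  have b1 : be z.2 ≤ -δ := (Ap.tsupport_blw h1 h hδ b).1
  exact u1_of (by linarith)

/-- the tail of a logarithmic integral -/
lemma int_tail {F : ℝ → ℂ} {C σ A L : ℝ} (hσ : 0 < σ) (hA : 0 < A) (hL : A ≤ L)
    (h : ∀ t, A ≤ t → ‖F t‖ ≤ C * t ^ (-σ)) :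
    ‖∫ t in A..L, ((t⁻¹ : ℝ) : ℂ) * F t‖ ≤ C / σ * A ^ (-σ) := by
  have hC : 0 ≤ C := by
    have := (norm_nonneg _).trans (h A le_rfl)
    exact nonneg_of_mul_nonneg_left this (Real.rpow_pos_of_pos hA _)
  have h0 : (0 : ℝ) ∉ Set.uIcc A L := by
    rw [Set.uIcc_of_le hL]
    exact fun k => absurd k.1 (not_le.2 hA)
  have hi : IntervalIntegrable (fun t : ℝ => C * t ^ (-σ - 1)) volume A L :=
    (intervalIntegral.intervalIntegrable_rpow (Or.inr h0)).const_mul C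
  refine (intervalIntegral.norm_integral_le_of_norm_le hL (.of_forall fun t ht => ?_) hi).trans ?_
  · have t0 : 0 < t := hA.trans ht.1
    rw [norm_mul, Complex.norm_real, Real.norm_of_nonneg (by positivity), Real.rpow_sub_one t0.ne',
      ← mul_div_assoc, ← div_eq_inv_mul]
    exact div_le_div_of_nonneg_right (h t ht.1.le) t0.le
  · rw [intervalIntegral.integral_const_mul, integral_rpow (Or.inr ⟨by linarith, h0⟩),
      sub_add_cancel, div_neg, ← neg_div, neg_sub, ← mul_div_assoc, div_mul_eq_mul_div]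
    have := Real.rpow_nonneg (hA.le.trans hL) (-σ)
    gcongr
    linarith

variable {D : Type*} [NormedAddCommGroup D] [InnerProductSpace ℂ D] {c : Ctx D}

lemma inner_perp {ψ : Completion D} (h : inner ℂ c.Om ψ = 0) (v : Completion D) :
    inner ℂ (perp c v) ψ = inner ℂ v ψ := by
  rw [perp, inner_sub_left, inner_smul_left, h, mul_zero, sub_zero]

end Aa

open Aa in
theorem aa_row {D : Type*} [NormedAddCommGroup D] [InnerProductSpace ℂ D] (c : Ctx D) :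
    Tools c → FLOW c → A1 c → A3 c → AA c := by
  intro t fl a1 a3 w W κ f ρ θ1 θ a0 u0 X d rx η hη
  have sρ : tsupport ρ ⊆ Set.Icc (-1) 1 := d.sr.trans (Set.Icc_subset_Icc (by norm_num) (by norm_num))
  obtain ⟨B, -, sB⟩ := Ap.ex_Icc d.t1
  obtain ⟨gL, gR, c0, A0, tL, tR, hc0, hA0, e, sL, sp⟩ := t.ann.split κ f B d.cut d.tf
  obtain ⟨C, σ, A1, δ0, hσ, hδ0, h3⟩ := a3 w W κ f ρ θ1 θ a0 u0 X gL c0 d rx tL hc0 sL
  obtain ⟨m, tm, tube⟩ := t.ann.tube κ f θ d.cut.1 d.tf d.bump.1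
  have hη' : 0 < η / 5 := by positivity
  have lim : Tendsto (fun A : ℝ => C / σ * A ^ (-σ)) atTop (𝓝 0) := by
    simpa using (tendsto_rpow_neg_atTop hσ).const_mul (C / σ)
  obtain ⟨A, hA, hA1, hA2⟩ := ((lim.eventually (ge_mem_nhds hη')).and
    ((eventually_ge_atTop A0).and (eventually_ge_atTop A1))).exists
  have hA' : 0 < A := by linarith
  have f0 := (fl _ m κ f ρ θ1 θ A (t.cv.cvw false w d.tp) tm d.cut.1 d.tf d.tr d.t1 d.bump.1
    hA').inner (𝕜 := ℂ) (tendsto_const_nhds (x := X c.Om))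
  have f1 := (fl _ m κ f ρ θ1 θ A (t.cv.cvW W d.isW).2 tm d.cut.1 d.tf d.tr d.t1 d.bump.1
    hA').inner (𝕜 := ℂ) (tendsto_const_nhds (x := X c.Om))
  simp only [inner_perp rx.perp, inner_zero_left] at f0 f1
  have f2 := (f0.sub f1).norm
  rw [sub_zero, norm_zero] at f2
  have late : ∀ F : S2, tsupport F ⊆ U1 → (w0L w - w1L W) F = 0 := fun F hF => by
    rw [ContinuousLinearMap.sub_apply, t.cv.late w W F d.tp d.isW hF, sub_self]
  filter_upwards [a1.above w W κ f ρ θ1 θ a0 u0 X d rx _ hη', f2.eventually (ge_mem_nhds hη'),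
    Ioc_mem_nhdsGT (lt_min hδ0 one_pos)] with δ b1 b2 hδ
  have hδ1 : δ ≤ δ0 := hδ.2.trans (min_le_left _ _)
  have hδ2 : δ ≤ 1 := hδ.2.trans (min_le_right _ _)
  have tt := tst_thn d.t1 d.bump.1 δ
  have o1 := (a1.order w W κ f ρ θ1 θ a0 u0 X _ δ d rx tt ((supp_thn θ1 θ δ).trans d.s1) hδ.1).norm
  have o2 := (a1.order w W κ f ρ θ1 θ a0 u0 X _ δ d rx (Ap.tst_blw d.t1 d.bump hδ.1)
    (((Ap.tsupport_blw d.t1 d.bump hδ.1).trans Set.inter_subset_right).trans d.s1) hδ.1).norm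
  rw [norm_zero] at o1 o2
  filter_upwards [b1, o1.eventually (ge_mem_nhds hη'), o2.eventually (ge_mem_nhds hη'),
    eventually_ge_atTop A] with L b3 b4 b5 hL
  have hL' : 0 < L := by linarith
  let Λ : S2 →L[ℂ] ℂ := innerSL ℂ (X c.Om) ∘L (w0L w - w1L W)
  have hΛ : ∀ F, ‖Λ F‖ = ‖inner ℂ ((w0L w - w1L W) F) (X c.Om)‖ := fun F =>
    norm_inner_symm (𝕜 := ℂ) (X c.Om) ((w0L w - w1L W) F)
  have i1 := (t.ann.int Λ κ f ρ _ δ A L d.cut.1 d.tf d.tr tt hδ.1 hA' hL).2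
  have i2 : ‖∫ s in A..L, ((s⁻¹ : ℝ) : ℂ) * Λ (pairF sq2 (eu κ) f ρ (thn θ1 θ δ) δ s)‖ ≤ η / 5 := by
    refine (int_tail hσ hA' hL fun s hs => ?_).trans hA
    have z := late _ (sp sq2 ρ _ δ s smooth_sq d.tr sρ tt ((supp_thn θ1 θ δ).trans sB) hδ.1 hδ2
      (hA1.trans hs)).1
    rw [hΛ, pair_add smooth_sq (t.ann.tst κ d.cut.1) tL tR e d.tf d.tr tt hδ.1 (by linarith),
      map_add, z, add_zero]
    exact h3 δ s hδ.1 hδ1 (hA2.trans hs)
  have i3 : ‖Λ (pairF sq2 κ f ρ (thn θ1 θ δ) δ A)‖ ≤ η / 5 := by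
    have z := late _ (tube ρ θ1 δ A d.tr sρ d.t1 hδ.1 (hA0.trans hA1))
    rw [map_sub, sub_eq_zero] at z
    rw [hΛ, z, ContinuousLinearMap.sub_apply, inner_sub_left]
    exact b2
  have i4 : ‖inner ℂ ((w0L w - w1L W) (pairF sq2 κ f ρ (thn θ1 θ δ) δ L)) (X c.Om)‖ ≤
      η / 5 + η / 5 := by
    rw [← hΛ, i1]
    exact (norm_add_le _ _).trans (add_le_add i3 i2)
  rw [ContinuousLinearMap.sub_apply, inner_sub_left] at i4
  rw [Err, pair_split smooth_sq d.cut.1 d.tf d.tr d.t1 d.bump hδ.1 hL', map_add, map_add,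
    t.cv.late w W _ d.tp d.isW (supp_blw smooth_sq d.cut.1 d.tf d.tr d.sr d.t1 d.bump hδ.1 hL'),
    inner_add_left, inner_add_left]
  have key : ∀ x y z k y' : ℂ, x + y + z - k = x - k + (y - y') + y' + z := fun _ _ _ _ _ => by ring
  rw [key _ _ _ _ (inner ℂ (w1L W (pairF sq2 κ f ρ (thn θ1 θ δ) δ L)) (X c.Om))]
  refine (norm_add_le _ _).trans ((add_le_add (norm_add₃_le) le_rfl).trans ?_)
  linarith

end

end Vale.Agent.P352X.CK
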