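import Vale.Agent.P352X.R.CONK.Tri
import Vale.Agent.P352X.Api4

/-!
# P352X, block CONK, row ANN
-/

set_option linter.all false

open MeasureTheory Filter Topology Set
open scoped ContDiff SchwartzMap

namespace Vale.Agent.P352X.CK

open Vale.Agent.P352 Vale.Agent.P352.GF Vale.Agent.P352.BW Vale.Agent.P352.H246
open Vale.Agent.P352.H496 Vale.Agent.P352.H755 Vale.Agent.P352X.Ap

variable {W : R2 → ℝ} {κ f g : P3 → ℝ} {ρ θ1 θ φ : ℝ → ℝ} {δ L A : ℝ}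

theorem tst_div (h : Tst ρ) (hδ : δ ≠ 0) : Tst fun t => ρ (t / δ) := by
  simp only [div_eq_inv_mul]
  exact cs_smul (inv_ne_zero hδ) h

theorem tst_dlt (h : Tst ρ) (hδ : 0 < δ) : Tst (dlt δ ρ) :=
  cs_mul_r (tst_div h hδ.ne') (contDiff_const (c := δ⁻¹))

theorem tst_thn (h : Tst θ1) (h' : ContDiff ℝ ∞ θ) (δ : ℝ) : Tst (thn θ1 θ δ) :=
  cs_mul_r h (h'.comp (contDiff_id.div_const δ))

theorem tsupport_div (ρ : ℝ → ℝ) (δ : ℝ) :
    tsupport (fun t => ρ (t / δ)) ⊆ {t | t / δ ∈ tsupport ρ} :=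
  tsupp_sub ((isClosed_tsupport ρ).preimage (by fun_prop)) fun _ h => subset_tsupport _ h

theorem tsupport_dlt (ρ : ℝ → ℝ) (δ : ℝ) : tsupport (dlt δ ρ) ⊆ {t | t / δ ∈ tsupport ρ} :=
  tsupport_mul_subset_left.trans (tsupport_div ρ δ)

theorem tsupport_thn (θ1 θ : ℝ → ℝ) (δ : ℝ) :
    tsupport (thn θ1 θ δ) ⊆ {t | t ∈ tsupport θ1 ∧ t / δ ∈ tsupport θ} := fun _ h =>
  ⟨tsupport_mul_subset_left h, tsupport_div θ δ (tsupport_mul_subset_right h)⟩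

theorem abs_dlt {b t : ℝ} (h : tsupport ρ ⊆ Icc (-b) b) (hδ : 0 < δ) (ht : t / δ ∈ tsupport ρ) :
    |t| ≤ b * δ := by
  have := abs_le.2 (h ht)
  rwa [abs_div, abs_of_pos hδ, div_le_iff₀ hδ] at this

theorem smooth_sq2 : ContDiff ℝ ∞ sq2 := smooth_d2 contDiff_id contDiff_id

theorem smooth_sqm {m : R2 → ℝ} (h : ContDiff ℝ ∞ m) (s : ℝ) : ContDiff ℝ ∞ (sqm m s) :=
  smooth_sq2.mul (h.comp (contDiff_const_smul _))

theorem tst_eu (h : Tst κ) : Tst (eu κ) :=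
  ⟨((h.1.fderiv_right (m := ∞) le_rfl).clm_apply
    (contDiff_fst.prodMk (contDiff_snd.const_smul _))).neg,
    HasCompactSupport.intro h.2 fun y hy => by
      rw [eu, fderiv_of_notMem_tsupport ℝ hy]; simp⟩

theorem tsupport_eu (κ : P3 → ℝ) : tsupport (eu κ) ⊆ tsupport (fderiv ℝ κ) :=
  tsupp_of_zero fun y h => by simp [eu, h]

theorem zero_notMem_eu (h : Cut κ) : (0 : P3) ∉ tsupport (eu κ) := fun k => by
  refine notMem_tsupport_iff_eventuallyEq.2 ?_ (tsupport_eu κ k)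
  filter_upwards [h.2.eventually_nhds] with y hy
  rw [Filter.EventuallyEq.fderiv_eq (f := fun _ => 1) hy]
  simp

/-- the function behind `pairF` -/
noncomputable def pfun (W : R2 → ℝ) (κ f : P3 → ℝ) (ρ θ1 : ℝ → ℝ) (δ L : ℝ) (z : V × V) : ℂ :=
  ((W (tx z.1 - tx z.2) * (kL κ L (pl z.1) * dlt δ ρ (be z.1)) *
    (f (pl z.2) * θ1 (be z.2)) : ℝ) : ℂ)

theorem pairF_eq : pairF W κ f ρ θ1 δ L = sch (pfun W κ f ρ θ1 δ L) := rfl

theorem pfun_eq (z : V × V) : pfun W κ f ρ θ1 δ L z =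
    W (tx z.1 - tx z.2) * (pr (kL κ L) (dlt δ ρ) z.1 * pr f θ1 z.2) := by
  simp only [pfun, pr]; push_cast; ring

theorem dc_pfun (hW : ContDiff ℝ ∞ W) (hκ : Tst κ) (hf : Tst f) (hρ : Tst ρ) (hθ : Tst θ1)
    (hδ : 0 < δ) (hL : 0 < L) : Dc (pfun W κ f ρ θ1 δ L) := by
  rw [funext pfun_eq]
  exact cs_mul_l (smooth_cx (hW.comp (by fun_prop)))
    (cs_prod (Far.dc_pr (Far.tst_kL hκ hL) (tst_dlt hρ hδ)) (Far.dc_pr hf hθ))

theorem pair_apply (hW : ContDiff ℝ ∞ W) (hκ : Tst κ) (hf : Tst f) (hρ : Tst ρ) (hθ : Tst θ1)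
    (hδ : 0 < δ) (hL : 0 < L) (z : V × V) : pairF W κ f ρ θ1 δ L z = pfun W κ f ρ θ1 δ L z :=
  sch_dc (dc_pfun hW hκ hf hρ hθ hδ hL) z

/-- the support conditions -/
def psup (κ f : P3 → ℝ) (ρ θ1 : ℝ → ℝ) (δ L : ℝ) : Set (V × V) :=
  {z | ((al z.1 / L, (Real.sqrt L)⁻¹ • tx z.1) ∈ tsupport κ ∧ be z.1 / δ ∈ tsupport ρ) ∧
    pl z.2 ∈ tsupport f ∧ be z.2 ∈ tsupport θ1}

theorem isClosed_psup : IsClosed (psup κ f ρ θ1 δ L) :=
  (((isClosed_tsupport κ).preimage (by fun_prop)).inter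
    ((isClosed_tsupport ρ).preimage (by fun_prop))).inter
    (((isClosed_tsupport f).preimage (by fun_prop)).inter
      ((isClosed_tsupport θ1).preimage (by fun_prop)))

theorem mem_psup {z : V × V} (h : kL κ L (pl z.1) * dlt δ ρ (be z.1) ≠ 0)
    (h' : f (pl z.2) * θ1 (be z.2) ≠ 0) : z ∈ psup κ f ρ θ1 δ L :=
  ⟨⟨subset_tsupport κ (left_ne_zero_of_mul h),
    subset_tsupport ρ (left_ne_zero_of_mul (right_ne_zero_of_mul h))⟩,
    subset_tsupport f (left_ne_zero_of_mul h'), subset_tsupport θ1 (right_ne_zero_of_mul h')⟩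

theorem tsupport_pair (hW : ContDiff ℝ ∞ W) (hκ : Tst κ) (hf : Tst f) (hρ : Tst ρ) (hθ : Tst θ1)
    (hδ : 0 < δ) (hL : 0 < L) : tsupport (pairF W κ f ρ θ1 δ L) ⊆ psup κ f ρ θ1 δ L :=
  tsupp_sub isClosed_psup fun z h => by
    rw [pair_apply hW hκ hf hρ hθ hδ hL, pfun, Complex.ofReal_ne_zero] at h
    exact mem_psup (right_ne_zero_of_mul (left_ne_zero_of_mul h)) (right_ne_zero_of_mul h)

theorem cpt_pair (hW : ContDiff ℝ ∞ W) (hκ : Tst κ) (hf : Tst f) (hρ : Tst ρ) (hθ : Tst θ1)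
    (hδ : 0 < δ) (hL : 0 < L) : HasCompactSupport (pairF W κ f ρ θ1 δ L) :=
  cpt_sch (dc_pfun hW hκ hf hρ hθ hδ hL)

theorem pair_addk {κ' : P3 → ℝ} (hW : ContDiff ℝ ∞ W) (hκ : Tst κ) (hκ' : Tst κ') (hf : Tst f)
    (hρ : Tst ρ) (hθ : Tst θ1) (hδ : 0 < δ) (hL : 0 < L) (e : ∀ y, g y = κ y + κ' y) :
    pairF W g f ρ θ1 δ L = pairF W κ f ρ θ1 δ L + pairF W κ' f ρ θ1 δ L :=
  sch_eq fun z => by
    rw [SchwartzMap.add_apply, pair_apply hW hκ hf hρ hθ hδ hL, pair_apply hW hκ' hf hρ hθ hδ hL]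
    simp only [pfun, kL, e]; push_cast; ring

theorem pair_addt {θ' : ℝ → ℝ} (hW : ContDiff ℝ ∞ W) (hκ : Tst κ) (hf : Tst f)
    (hρ : Tst ρ) (hθ : Tst θ1) (hθ' : Tst θ') (hδ : 0 < δ) (hL : 0 < L)
    (e : ∀ t, φ t = θ1 t + θ' t) :
    pairF W κ f ρ φ δ L = pairF W κ f ρ θ1 δ L + pairF W κ f ρ θ' δ L :=
  sch_eq fun z => by
    rw [SchwartzMap.add_apply, pair_apply hW hκ hf hρ hθ hδ hL, pair_apply hW hκ hf hρ hθ' hδ hL]
    simp only [pfun, e]; push_cast; ring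

theorem pair_dlt : pairF W κ f ρ θ1 δ L = pairF W κ f (dlt δ ρ) θ1 1 L := by
  simp only [pairF, dlt, div_one]

/-! ### the scale as a parameter -/

theorem fam_pair (hW : ContDiff ℝ ∞ W) (hκ : Tst κ) (hf : Tst f) (hρ : Tst ρ) (hθ : Tst θ1)
    (hδ : 0 < δ) : Api4.Fam (Ioi 0) (pfun W κ f ρ θ1 δ) := by
  refine ⟨isOpen_Ioi, fun q hq => ContDiffAt.contDiffWithinAt ?_, fun t ht => ?_⟩
  · have h0 : q.1 ≠ 0 := ne_of_gt hq.1
    have h1 : ContDiffAt ℝ ∞ (fun q : ℝ × V × V => kL κ q.1 (pl q.2.1)) q :=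
      hκ.1.contDiffAt.comp q (((smooth_al.comp contDiff_snd.fst).contDiffAt.div contDiffAt_fst
        h0).prodMk (((contDiffAt_fst.sqrt h0).inv (Real.sqrt_pos.2 hq.1).ne').smul
          (smooth_tx.comp contDiff_snd.fst).contDiffAt))
    have h2 := (tst_dlt hρ hδ).1
    have h3 := hf.1
    have h4 := hθ.1
    refine Complex.ofRealCLM.contDiff.contDiffAt.comp q
      ((ContDiff.contDiffAt (by fun_prop)).mul (h1.mul (ContDiff.contDiffAt (by fun_prop))) |>.mul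
        (ContDiff.contDiffAt (by fun_prop)))
  · have ht : 0 < t := ht
    refine ⟨(plE.toHomeomorph ⁻¹' (((fun q : ℝ × P3 => (q.1 * q.2.1, Real.sqrt q.1 • q.2.2)) ''
      (Icc (t / 2) (2 * t) ×ˢ tsupport κ)) ×ˢ tsupport (dlt δ ρ))) ×ˢ tsupport (pr f θ1),
      (plE.toHomeomorph.isCompact_preimage.2 (((isCompact_Icc.prod hκ.2.isCompact).image
        (by fun_prop)).prod (tst_dlt hρ hδ).2.isCompact)).prod (Far.dc_pr hf hθ).2.isCompact, ?_⟩
    filter_upwards [Icc_mem_nhds (show t / 2 < t by linarith) (show t < 2 * t by linarith)]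
      with s hs z hz
    by_contra h
    rw [pfun_eq] at h
    have h1 := left_ne_zero_of_mul (right_ne_zero_of_mul h)
    have h2 := right_ne_zero_of_mul (right_ne_zero_of_mul h)
    rw [pr, Complex.ofReal_ne_zero] at h1
    have hs0 : 0 < s := by linarith [hs.1]
    refine hz ⟨⟨⟨(s, (al z.1 / s, (Real.sqrt s)⁻¹ • tx z.1)),
      ⟨hs, subset_tsupport κ (left_ne_zero_of_mul h1)⟩, (Far.scE hs0).left_inv (pl z.1)⟩,
      subset_tsupport _ (right_ne_zero_of_mul h1)⟩, subset_tsupport _ h2⟩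

theorem deriv_kL (hκ : Tst κ) (y : P3) {t : ℝ} (ht : 0 < t) :
    HasDerivAt (fun t => kL κ t y) (t⁻¹ * kL (eu κ) t y) t := by
  have hs := Real.sqrt_pos.2 ht
  have h1 : HasDerivAt (fun t : ℝ => ((y.1 / t, (Real.sqrt t)⁻¹ • y.2) : P3))
      (-t⁻¹ • (y.1 / t, (1 / 2 : ℝ) • (Real.sqrt t)⁻¹ • y.2)) t := by
    refine HasDerivAt.prodMk ?_ ?_
    · refine ((hasDerivAt_inv ht.ne').const_mul y.1).congr_deriv ?_
      simp only [Prod.smul_fst, smul_eq_mul]; field_simp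
    · refine (((Real.hasDerivAt_sqrt ht.ne').inv hs.ne').smul_const y.2).congr_deriv ?_
      simp only [Prod.smul_snd, smul_smul, Real.sq_sqrt ht.le]
      congr 1
      field_simp
  refine (((hκ.1.differentiable (by simp)) _).hasFDerivAt.comp_hasDerivAt t h1).congr_deriv ?_
  simp only [kL, eu, map_smul, smul_eq_mul]
  ring

theorem pair_int {B : Type*} [NormedAddCommGroup B] [NormedSpace ℂ B] [CompleteSpace B]
    (Λ : S2 →L[ℂ] B) (hW : ContDiff ℝ ∞ W) (hκ : Tst κ) (hf : Tst f) (hρ : Tst ρ) (hθ : Tst θ1)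
    (hδ : 0 < δ) (hA : 0 < A) (hL : A ≤ L) :
    ContinuousOn (fun t : ℝ => ((t⁻¹ : ℝ) : ℂ) • Λ (pairF W (eu κ) f ρ θ1 δ t)) (uIcc A L) ∧
    Λ (pairF W κ f ρ θ1 δ L) = Λ (pairF W κ f ρ θ1 δ A) +
      ∫ t in A..L, ((t⁻¹ : ℝ) : ℂ) • Λ (pairF W (eu κ) f ρ θ1 δ t) := by
  have hs : uIcc A L ⊆ Ioi 0 := fun t ht => hA.trans_le (by rw [uIcc_of_le hL] at ht; exact ht.1)
  refine ⟨(Complex.continuous_ofReal.comp_continuousOn (continuousOn_inv₀.mono fun t ht =>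
    ne_of_gt (hs ht))).smul (Λ.continuous.comp_continuousOn
      ((fam_pair hW (tst_eu hκ) hf hρ hθ hδ).continuousOn.mono hs)), ?_⟩
  rw [← sub_eq_iff_eq_add', pairF_eq, pairF_eq, (fam_pair hW hκ hf hρ hθ hδ).ftc Λ hs]
  refine intervalIntegral.integral_congr fun t ht => ?_
  rw [← map_smul, pairF_eq, ← Api4.sch_const_mul _ (dc_pfun hW (tst_eu hκ) hf hρ hθ hδ (hs ht))]
  congr 2
  funext z
  have := ((((deriv_kL hκ (pl z.1) (hs ht)).mul_const (dlt δ ρ (be z.1))).const_mul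
    (W (tx z.1 - tx z.2))).mul_const (f (pl z.2) * θ1 (be z.2))).ofReal_comp.deriv
  refine this.trans ?_
  simp only [pfun]; push_cast; ring

/-! ### supports -/

theorem norm_le_of {R B : ℝ} {z : V} (h : ‖pl z‖ ≤ R) (h' : |be z| ≤ B) : ‖z‖ ≤ 2 * R + B := by
  have := norm_pt_le (tx z) (al z) (be z)
  rw [pt_eta] at this
  linarith [show |al z| ≤ _ from (norm_fst_le (pl z)).trans h,
    show ‖tx z‖ ≤ _ from (norm_snd_le (pl z)).trans h]

theorem ex_R {E : Type*} [NormedAddCommGroup E] [NormedSpace ℝ E] {f : E → ℝ} (hf : Tst f) :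
    ∃ R, 0 < R ∧ ∀ y ∈ tsupport f, ‖y‖ ≤ R := hf.2.isCompact.isBounded.exists_pos_norm_le

theorem split2 (K : Set P3) (f : P3 → ℝ) (B : ℝ) (hK : IsCompact K) (h0 : (0 : P3) ∉ K)
    (hf : Tst f) : ∃ (σ : P3 → ℝ) (c0 A0 : ℝ), ContDiff ℝ ∞ σ ∧ 0 < c0 ∧ 1 ≤ A0 ∧
    tsupport σ ⊆ {y | y.1 ≤ -c0} ∧
    ∀ (g : P3 → ℝ) (W : R2 → ℝ) (ρ φ : ℝ → ℝ) (δ A : ℝ), Tst g → tsupport g ⊆ K →
      ContDiff ℝ ∞ W → Tst ρ → tsupport ρ ⊆ Set.Icc (-1) 1 → Tst φ →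
      tsupport φ ⊆ Set.Icc (-B) B → 0 < δ → δ ≤ 1 → A0 ≤ A →
      tsupport (pairF W (fun y => (1 - σ y) * g y) f ρ φ δ A) ⊆ U1 ∧
      tsupport (pairF W (fun y => σ y * g y) f ρ φ δ A) ⊆ U2 := by
  obtain ⟨R0, hR0, hR⟩ := ex_R hf
  set R := 2 * R0 + |B| with hRd
  have hRp : 0 < R := by positivity
  have hM : 0 < 4 * (2 * R + 1) := by positivity
  set q : P3 → ℝ := fun y => d2 y.2 y.2 / (4 * (2 * R + 1)) with hq
  obtain ⟨c3, hc3, hc⟩ := hK.exists_forall_le' (f := fun y => |y.1| + q y)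
    (by simp only [hq]; fun_prop) (a := 0) fun y hy => by
      have a1 : 0 ≤ q y := div_nonneg (d2_nonneg _) hM.le
      refine lt_of_le_of_ne (add_nonneg (abs_nonneg _) a1) fun h => h0 ?_
      obtain ⟨a2, a3⟩ := (add_eq_zero_iff_of_nonneg (abs_nonneg _) a1).1 h.symm
      have a4 : y = 0 := Prod.ext (abs_eq_zero.1 a2)
        ((d2_eq_zero _).1 ((div_eq_zero_iff.1 a3).resolve_right hM.ne'))
      exact a4 ▸ hy
  set c0 := c3 / 5 with hc0
  have hc0p : 0 < c0 := by positivity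
  set σ : P3 → ℝ := fun y => Real.smoothTransition (-y.1 / c0 - 1) with hσ
  have hσs : ContDiff ℝ ∞ σ := Real.smoothTransition.contDiff.comp
    ((contDiff_fst.neg.div_const _).sub contDiff_const)
  have s1 : tsupport σ ⊆ {y | y.1 ≤ -c0} :=
    tsupp_sub (isClosed_le continuous_fst continuous_const) fun y hy => by
      by_contra h
      refine hy (Real.smoothTransition.zero_of_nonpos ?_)
      rw [sub_nonpos, div_le_one hc0p]
      linarith [show -c0 < y.1 from not_le.1 h]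
  have s2 : tsupport (fun y => 1 - σ y) ⊆ {y | -(2 * c0) ≤ y.1} :=
    tsupp_sub (isClosed_le continuous_const continuous_fst) fun y hy => by
      by_contra h
      refine hy (sub_eq_zero.2 (Real.smoothTransition.one_of_one_le ?_).symm)
      rw [le_sub_iff_add_le, le_div_iff₀ hc0p]
      linarith [show y.1 < -(2 * c0) from not_le.1 h]
  refine ⟨σ, c0, 2 * R / c0 + 1, hσs, hc0p, le_add_of_nonneg_left (by positivity), s1,
    fun g W ρ φ δ A hg sg hW hρ sρ hφ sφ hδ hδ1 hA => ?_⟩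
  have hA' : 2 * R / c0 < A := by linarith
  have hA0 : 0 < A := lt_trans (by positivity) hA'
  have hy : ∀ {κ z}, z ∈ psup κ f ρ φ δ A → ‖z.2‖ ≤ R := fun h =>
    norm_le_of (hR _ h.2.1) ((abs_le.2 (sφ h.2.2)).trans (le_abs_self B))
  refine ⟨fun z hz => ?_, fun z hz => ?_⟩
  · have h := tsupport_pair hW (cs_mul_l (contDiff_const.sub hσs) hg) hf hρ hφ hδ hA0 hz
    refine Far.late_iff.2 ?_
    rintro _ rfl _ rfl a1 a2
    rw [Far.d2_sub_comm]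
    have b1 : -(2 * c0) ≤ al z.1 / A := s2 (tsupport_mul_subset_left h.1.1)
    have b2 : c3 ≤ |al z.1 / A| + q (al z.1 / A, (Real.sqrt A)⁻¹ • tx z.1) :=
      hc _ (sg (tsupport_mul_subset_right h.1.1))
    refine Far.far_est (s := al z.1) (b := 1) hRp zero_le_one hc0p hA' (hy h) a1 ?_ ?_ ?_
    · linarith [le_abs_self (al z.2), abs_al_le z.2, hy h]
    · linarith [le_abs_self (be z.2), abs_be_le z.2, hy h, abs_dlt sρ hδ h.1.2,
        neg_abs_le (be z.1)]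
    · change c0 ≤ al z.1 / A + q (al z.1 / A, (Real.sqrt A)⁻¹ • tx z.1)
      rcases abs_cases (al z.1 / A) with k | k <;> linarith [k.1]
  · have h := tsupport_pair hW (cs_mul_l hσs hg) hf hρ hφ hδ hA0 hz
    refine Far.late_iff.2 ?_
    rintro _ rfl _ rfl a1 -
    have b1 : al z.1 / A ≤ -c0 := s1 (tsupport_mul_subset_left h.1.1)
    rw [div_le_iff₀ hA0] at b1
    rw [div_lt_iff₀ hc0p] at hA'
    linarith [neg_abs_le (al z.2), abs_al_le z.2, hy h]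

theorem tube (g f : P3 → ℝ) (θ : ℝ → ℝ) (hg : Tst g) (hf : Tst f) (hθ : Tst θ) :
    ∃ m : R2 → ℝ, Tst m ∧
    ∀ (ρ θ1 : ℝ → ℝ) (δ A : ℝ), Tst ρ → tsupport ρ ⊆ Set.Icc (-1) 1 → Tst θ1 → 0 < δ → 1 ≤ A →
      tsupport (pairF sq2 g f ρ (thn θ1 θ δ) δ A -
        pairF (sqm m (Real.sqrt (δ * A))) g f ρ (thn θ1 θ δ) δ A : S2) ⊆ U1 := by
  obtain ⟨R1, hR1, h1⟩ := ex_R hg
  obtain ⟨R2', hR2, h2⟩ := ex_R hf
  obtain ⟨R3, hR3, h3⟩ := ex_R hθ
  set r := 2 * (R1 + R2') * (R3 + 1) + 1 with hr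
  have hr1 : 1 ≤ r := le_add_of_nonneg_left (by positivity)
  obtain ⟨m, m1, -, m2, -⟩ := ex_chi (isCompact_closedBall (0 : R2) r) isOpen_univ (subset_univ _)
  refine ⟨m, m1, fun ρ θ1 δ A hρ sρ hθ1 hδ hA z hz => ?_⟩
  have hA0 : 0 < A := one_pos.trans_le hA
  have hs := Real.sqrt_pos.2 (mul_pos hδ hA0)
  have ht := tst_thn hθ1 hθ.1 δ
  have h : z ∈ psup g f ρ (thn θ1 θ δ) δ A ∩
      {z | r * (δ * A) ≤ d2 (tx z.1 - tx z.2) (tx z.1 - tx z.2)} := by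
    refine tsupp_sub (isClosed_psup.inter (isClosed_le continuous_const (by fun_prop)))
      (fun z h => ?_) hz
    rw [SchwartzMap.sub_apply, pair_apply smooth_sq2 hg hf hρ ht hδ hA0,
      pair_apply (smooth_sqm m1.1 _) hg hf hρ ht hδ hA0, pfun, pfun, ← Complex.ofReal_sub,
      Complex.ofReal_ne_zero, ← sub_mul, ← sub_mul] at h
    refine ⟨mem_psup (right_ne_zero_of_mul (left_ne_zero_of_mul h)) (right_ne_zero_of_mul h), ?_⟩
    have k : r < ‖(Real.sqrt (δ * A))⁻¹ • (tx z.1 - tx z.2)‖ := by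
      by_contra k
      refine left_ne_zero_of_mul (left_ne_zero_of_mul h) ?_
      rw [sqm, (m2 _ (mem_closedBall_zero_iff.2 (not_lt.1 k))).self_of_nhds, mul_one, sq2, sub_self]
    rw [norm_smul, norm_inv, Real.norm_of_nonneg hs.le, lt_inv_mul_iff₀ hs] at k
    refine le_trans ?_ (norm_sq_le_d2 _)
    have k2 := mul_self_le_mul_self (by positivity) k.le
    have k3 := Real.mul_self_sqrt (mul_pos hδ hA0).le
    nlinarith [mul_pos hδ hA0, mul_le_mul_of_nonneg_right hr1 (show 0 ≤ r * (δ * A) by positivity)]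
  refine Far.late_iff.2 ?_
  rintro _ rfl _ rfl a1 a2
  rw [Far.d2_sub_comm]
  refine lt_of_lt_of_le ?_ h.2
  have b1 : |al z.1 / A| ≤ R1 := (norm_fst_le (_, _)).trans (h1 _ h.1.1.1)
  have b2 : |al z.2| ≤ R2' := (norm_fst_le (pl z.2)).trans (h2 _ h.1.2.1)
  have b3 : |be z.2 / δ| ≤ R3 := h3 _ (tsupport_thn _ _ _ h.1.2.2).2
  have b4 := abs_dlt sρ hδ h.1.1.2
  rw [abs_div, abs_of_pos hA0, div_le_iff₀ hA0] at b1
  rw [abs_div, abs_of_pos hδ, div_le_iff₀ hδ] at b3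
  have c1 : al z.2 - al z.1 ≤ (R1 + R2') * A := by
    nlinarith [le_abs_self (al z.2), neg_abs_le (al z.1)]
  have c2 : be z.2 - be z.1 ≤ (R3 + 1) * δ := by
    linarith [le_abs_self (be z.2), neg_abs_le (be z.1)]
  nlinarith [mul_le_mul c1 c2 a2 (by positivity), mul_pos hδ hA0]

theorem ann_row : ANN where
  tst _ := tst_eu
  app _ _ _ _ _ _ _ := pair_apply
  int Λ κ f ρ θ1 δ A L hκ hf hρ hθ hδ hA hL :=
    ⟨(pair_int Λ smooth_sq2 hκ hf hρ hθ hδ hA hL).1.intervalIntegrable,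
      (pair_int Λ smooth_sq2 hκ hf hρ hθ hδ hA hL).2⟩
  split κ f B hκ hf := by
    have h := tst_eu hκ.1
    obtain ⟨σ, c0, A0, a1, a2, a3, a4, a5⟩ := split2 _ f B h.2.isCompact (zero_notMem_eu hκ) hf
    exact ⟨fun y => σ y * eu κ y, fun y => (1 - σ y) * eu κ y, c0, A0, cs_mul_l a1 h,
      cs_mul_l (contDiff_const.sub a1) h, a2, a3, fun y => by ring,
      tsupport_mul_subset_left.trans a4, fun W ρ φ δ A => a5 _ W ρ φ δ A h subset_rfl⟩
  split2 := split2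
  tube := tube

end Vale.Agent.P352X.CK
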