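import Vale.Agent.P352X.R.CONK.Spec
import Vale.Agent.P352X.R.FAR
import Vale.Agent.P352X.Api1C
import Vale.Agent.P352X.ST.Ker

/-!
# P352X: row CK.cv (covariance and orderings)
-/

set_option linter.all false

open MeasureTheory Filter Topology
open scoped SchwartzMap ComplexConjugate ENNReal ContDiff

namespace Vale.Agent.P352X.CK

open Vale.Agent.P352 Vale.Agent.P352.GF Vale.Agent.P352.BW Vale.Agent.P352.H246
open Vale.Agent.P352.H496 Vale.Agent.P352.H755 Vale.Agent.P352.H15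
open UniformSpace (Completion)

noncomputable section

namespace Cvr

/-- contraction with an eigenvector of a Lorentz transformation -/
lemma contr {L : Ix → V} (hL : IsLor L) {a : V} {r : ℝ} (hab : sim 1 L 0 a = r • a) (k : Ix) :
    r * mdot a (L k) = eta k * a k := by
  have h2 : mdot (sim 1 L 0 a) (L k) = ∑ m, a m * mdot (L m) (L k) := by
    simp only [GF.mdot, sim, Finset.mul_sum, Pi.zero_apply, zero_add, one_mul, Finset.sum_mul]
    rw [Finset.sum_comm]
    exact Finset.sum_congr rfl fun m _ => Finset.sum_congr rfl fun n _ => by ring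
  rw [← md_smul_l, ← hab, h2, Finset.sum_eq_single k]
  · rw [hL.1 k k]
    simp [bas, mul_comm]
  · intro m _ hm
    rw [hL.1 m k]
    simp [bas, Ne.symm hm]
  · exact fun h => absurd (Finset.mem_univ k) h

lemma coef (L : Ix → V) (K M : I2) : ∑ k, ∑ l, ∑ n,
    ((eta k * va k * (eta l * va l) * eta n : ℝ) : ℂ) * (L2 L K (k, l) * L2 L M (n, n)) =
    ((mdot va (L K.1) * mdot va (L K.2) * mdot (L M.1) (L M.2) : ℝ) : ℂ) := by
  simp only [GF.mdot, L2, ← Complex.ofReal_mul, ← Complex.ofReal_sum]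
  congr 1
  rw [Finset.sum_mul_sum]
  simp only [Finset.sum_mul]
  simp only [Finset.mul_sum]
  exact Finset.sum_congr rfl fun _ _ => Finset.sum_congr rfl fun _ _ =>
    Finset.sum_congr rfl fun _ _ => by ring

lemma sum32 {H α β γ δ ε : Type*} [AddCommMonoid H] [Fintype α] [Fintype β] [Fintype γ] [Fintype δ]
    [Fintype ε] (F : α → β → γ → δ → ε → H) :
    ∑ k, ∑ l, ∑ n, ∑ K, ∑ M, F k l n K M = ∑ K, ∑ M, ∑ k, ∑ l, ∑ n, F k l n K M :=
  calc _ = ∑ p : α × β × γ, ∑ q : δ × ε, F p.1 p.2.1 p.2.2 q.1 q.2 := by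
        simp only [Fintype.sum_prod_type]
    _ = _ := Finset.sum_comm
    _ = _ := by simp only [Fintype.sum_prod_type]

lemma sum21 {H α β γ : Type*} [AddCommMonoid H] [Fintype α] [Fintype β] [Fintype γ]
    (F : α → β → γ → H) : ∑ k, ∑ l, ∑ n, F k l n = ∑ n, ∑ k, ∑ l, F k l n :=
  (Finset.sum_congr rfl fun _ _ => Finset.sum_comm).trans Finset.sum_comm

/-- the contraction of the indices with `a a η` -/
lemma key {H : Type*} [AddCommGroup H] [Module ℂ H] {L : Ix → V} (hL : IsLor L) {μ : ℝ}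
    (ha : ∀ k, mdot va (L k) = μ * (eta k * va k)) (X : I2 → I2 → H) :
    ∑ k, ∑ l, ∑ n, ((eta k * va k * (eta l * va l) * eta n : ℝ) : ℂ) •
      ∑ K, ∑ M, (L2 L K (k, l) * L2 L M (n, n)) • X K M =
    ((μ ^ 2 : ℝ) : ℂ) • ∑ k, ∑ l, ∑ n,
      ((eta k * va k * (eta l * va l) * eta n : ℝ) : ℂ) • X (k, l) (n, n) := by
  have e1 : ∑ k, ∑ l, ∑ n, ((eta k * va k * (eta l * va l) * eta n : ℝ) : ℂ) •
      ∑ K, ∑ M, (L2 L K (k, l) * L2 L M (n, n)) • X K M = ∑ K, ∑ M, (∑ k, ∑ l, ∑ n,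
        ((eta k * va k * (eta l * va l) * eta n : ℝ) : ℂ) * (L2 L K (k, l) * L2 L M (n, n))) •
        X K M := by
    simp only [Finset.smul_sum, Finset.sum_smul, smul_smul]
    exact sum32 _
  rw [e1]
  simp only [coef, ha, hL.1, Fintype.sum_prod_type, Finset.smul_sum, smul_smul]
  refine Finset.sum_congr rfl fun k _ => Finset.sum_congr rfl fun l _ =>
    Finset.sum_congr rfl fun n _ => ?_
  rw [Finset.sum_eq_single n]
  · simp only [bas, if_true, ← Complex.ofReal_mul]
    congr 2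
    ring
  · intro m _ hm
    simp [bas, hm]
  · exact fun h => absurd (Finset.mem_univ n) h

variable {D : Type*} [NormedAddCommGroup D] [InnerProductSpace ℂ D] {c : Ctx D}

lemma w0L_apply (w : I2 → I2 → S2 →L[ℂ] Completion D) (F : S2) : w0L w F = ∑ k, ∑ l, ∑ n,
    ((eta k * va k * (eta l * va l) * eta n : ℝ) : ℂ) • w (k, l) (n, n) F := by
  simp only [w0L, ContinuousLinearMap.sum_apply, ContinuousLinearMap.smul_apply]

lemma swp_apply (F : S2) (x y : V) : swp F (x, y) = F (y, x) := rfl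

/-- covariance up to multiples of the vacuum -/
def Cov (c : Ctx D) (w : I2 → I2 → S2 →L[ℂ] Completion D) : Prop :=
  ∀ s L a K M (F G : S2), 0 < s → IsLor L → (∀ x y, G (x, y) = F (sim s L a x, sim s L a y)) →
    ∃ κ : ℂ, w K M F = ∑ K', ∑ M', (L2 L K' K * L2 L M' M) • Ug c.Q s L a (w K' M' G) + κ • c.Om

lemma Cov.one {w : I2 → I2 → S2 →L[ℂ] Completion D} (h : Cov c w) {s μ : ℝ} {L : Ix → V} {a : V}
    {F G : S2} (hs : 0 < s) (hL : IsLor L) (e : ∀ x y, G (x, y) = F (sim s L a x, sim s L a y))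
    (ha : ∀ k, mdot va (L k) = μ * (eta k * va k)) :
    ∃ κ : ℂ, w0L w F = ((μ ^ 2 : ℝ) : ℂ) • Ug c.Q s L a (w0L w G) + κ • c.Om := by
  choose κ hκ using fun K M => h s L a K M F G hs hL e
  refine ⟨∑ k, ∑ l, ∑ n, ((eta k * va k * (eta l * va l) * eta n : ℝ) : ℂ) * κ (k, l) (n, n), ?_⟩
  rw [w0L_apply, w0L_apply]
  simp only [hκ, smul_add, Finset.sum_add_distrib]
  rw [key hL ha]
  simp only [map_sum, map_smul, Finset.sum_smul, smul_smul]

lemma Cov.cv (g : GRP c) {w : I2 → I2 → S2 →L[ℂ] Completion D} (h : Cov c w) : Cv c (w0L w) := by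
  refine ⟨fun a F G e => ?_, fun r s F G hr hs e => ?_⟩
  · have := h.one (μ := 1) (a := a) (F := F) (G := G) one_pos H496.isLor_one
      (fun x y => by rw [sim_ut, sim_ut, e]) fun k => by
        rw [← contr (r := 1) H496.isLor_one (by rw [sim_ut, add_zero, one_smul]) k, one_mul,
          one_mul]
    simpa only [one_pow, Complex.ofReal_one, one_smul, Ut] using this
  · obtain ⟨hΛ, hz⟩ := g.lsc r s hr hs
    have hq : 0 < Real.sqrt (r * s) := Real.sqrt_pos.2 (by positivity)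
    set Λ := bst va vb (Real.sqrt (r / s) - 1) (Real.sqrt (s / r) - 1)
    have e2 : sim 1 Λ 0 va = (r / Real.sqrt (r * s)) • va := by
      have h3 : Real.sqrt (r * s) • sim 1 Λ 0 va = r • va := by
        have : scp r s va = r • va := null_ext (by simp) (by simp) (by simp)
        rw [← this, ← hz]
        funext n
        simp [sim]
      refine smul_right_injective _ hq.ne' (h3.trans ?_)
      simp only [smul_smul]
      rw [mul_div_cancel₀ _ hq.ne']
    have := h.one (μ := Real.sqrt (r * s) / r) (a := 0) (F := F) (G := G) hq hΛ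
      (fun x y => by rw [hz, hz, e]) fun k => by
        rw [← contr hΛ e2 k]
        field_simp
    rwa [div_pow, Real.sq_sqrt (by positivity), show r * s / r ^ 2 = s / r by field_simp] at this

lemma cov_tp {e : Bool} {w : I2 → I2 → S2 →L[ℂ] Completion D} (h : TP2 c.Q c.T e w) : Cov c w :=
  fun s L a K M F G hs hL e => by
    simpa only [Ug_apply c.Q hs hL] using h.cov s L a K M F G hs hL e

lemma cov_W {W : I2 → I2 → S2 →L[ℂ] Completion D} (h : IsW c W) : Cov c W :=
  fun s L a K M F G hs hL e => ⟨0, by rw [zero_smul, add_zero]; exact h.2 s L a K M F G hs hL e⟩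

lemma cov_W' {W : I2 → I2 → S2 →L[ℂ] Completion D} (h : IsW c W) :
    Cov c fun K M => W M K ∘L swp := fun s L a K M F G hs hL e => ⟨0, by
  rw [zero_smul, add_zero, Finset.sum_comm]
  simp only [ContinuousLinearMap.comp_apply]
  rw [h.2 s L a M K (swp F) (swp G) hs hL fun x y => e y x]
  simp only [mul_comm]⟩

lemma open_U1 : IsOpen U1 := by
  have : U1 = {q : V × V | 0 ≤ (q.2 - q.1) o ∧ 0 ≤ mu (q.2 - q.1)}ᶜ := by
    ext q
    simp [U1, Late, mu]
  rw [this, isOpen_compl_iff]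
  have h : Continuous fun q : V × V => q.2 - q.1 := continuous_snd.sub continuous_fst
  exact (isClosed_le continuous_const ((continuous_apply o).comp h)).inter
    (isClosed_le continuous_const (cont_mu.comp h))

lemma open_U2 : IsOpen U2 := open_U1.preimage continuous_swap

lemma late {w W : I2 → I2 → S2 →L[ℂ] Completion D} (hw : TP2 c.Q c.T false w) (hW : IsW c W)
    (K M : I2) {F : S2} (hF : tsupport F ⊆ U1) : w K M F = W M K (swp F) := by
  refine sub_eq_zero.1 (ST.ker2 (w K M - W M K ∘L swp) open_U1 (fun f g _ _ hs => ?_) F hF)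
  simp only [ContinuousLinearMap.sub_apply, ContinuousLinearMap.comp_apply]
  rw [hw.fac K M f g _ (fun _ _ => rfl) fun x hx y hy => hs (Set.mk_mem_prod hx hy) x rfl y rfl,
    hW.1 M K g f _ fun x y => mul_comm (f y) (g x)]
  simp

lemma early {w W : I2 → I2 → S2 →L[ℂ] Completion D} (hw : TP2 c.Q c.T false w) (hW : IsW c W)
    (K M : I2) {F : S2} (hF : tsupport F ⊆ U2) : w K M F = W K M F := by
  refine sub_eq_zero.1 (ST.ker2 (w K M - W K M) open_U2 (fun f g _ _ hs => ?_) F hF)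
  simp only [ContinuousLinearMap.sub_apply]
  rw [hw.swap K M (ST.tens f g) (ST.tens g f) fun x y => mul_comm (g x) (f y),
    hw.fac M K g f _ (fun _ _ => rfl) fun y hy x hx => hs (Set.mk_mem_prod hx hy) y rfl x rfl,
    hW.1 K M f g _ fun x y => rfl]
  simp

lemma Taa_eq {h : Fn} (hh : IsTest h) (v : D) : Taa c h v =
    ∑ k, ∑ l, ((eta k * va k * (eta l * va l) : ℝ) : ℂ) • c.T k l h v := by
  unfold Taa Ctx.Tf
  exact Finset.sum_congr rfl fun k _ => Finset.sum_congr rfl fun l _ => Far.T_smul c k l _ hh v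

lemma coe_sum3 (a : Ix → Ix → Ix → ℂ) (v : Ix → Ix → Ix → D) :
    ∑ k, ∑ l, ∑ n, a k l n • (v k l n : Completion D) =
      ((∑ k, ∑ l, ∑ n, a k l n • v k l n : D) : Completion D) := by
  change _ = Completion.toComplL (𝕜 := ℂ) _
  simp only [map_sum, map_smul]
  rfl

lemma prod {W : I2 → I2 → S2 →L[ℂ] Completion D} (hW : IsW c W) {h g : Fn} {F : S2}
    (hh : IsTest h) (hg : IsTest g) (e : ∀ x y, F (x, y) = h x * g y) :
    w0L W F = ((Taa c h (c.Thf g c.Q.vac) : D) : Completion D) ∧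
    w1L W F = ((c.Thf g (Taa c h c.Q.vac) : D) : Completion D) := by
  have hB := fun m n => c.Q.bose_fld _ (c.hT.bose m n)
  rw [w1L, w0L_apply, w0L_apply, Taa_eq hh, Taa_eq hh]
  obtain ⟨h, rfl⟩ := id hh
  obtain ⟨g, rfl⟩ := id hg
  simp only [ContinuousLinearMap.comp_apply, fun K M => hW.1 K M h g F e,
    fun K M => hW.1 K M g h (swp F) fun x y => (e y x).trans (mul_comm _ _), coe_sum3, Ctx.Thf,
    GF.tr, fsum (hB _ _) hh, fsum (hB _ _) hg, fsmul (hB _ _) hh, fsmul (hB _ _) hg,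
    Finset.smul_sum, smul_smul]
  constructor
  · simp only [Complex.ofReal_mul]
  · congr 1
    rw [sum21]
    simp only [Complex.ofReal_mul, mul_comm]

lemma smooth_pol (j : Fin 4) : ContDiff ℝ ∞ (pol j) := by
  fin_cases j
  exacts [contDiff_const, contDiff_apply ℝ ℝ 0, contDiff_apply ℝ ℝ 1,
    smooth_d2 contDiff_id contDiff_id]

lemma smooth_qol (j : Fin 4) : ContDiff ℝ ∞ (qol j) := by
  fin_cases j
  exacts [smooth_d2 contDiff_id contDiff_id, contDiff_const.mul (contDiff_apply ℝ ℝ 0),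
    contDiff_const.mul (contDiff_apply ℝ ℝ 1), contDiff_const]

lemma tst_wt {p : R2 → ℝ} (hp : ContDiff ℝ ∞ p) {f : P3 → ℝ} (hf : Tst f) : Tst (wt p f) :=
  ⟨(hp.comp contDiff_snd).mul hf.1, hf.2.mul_left⟩

lemma tst_dlt {ρ : ℝ → ℝ} (h : Tst ρ) {δ : ℝ} (hδ : 0 < δ) : Tst (dlt δ ρ) :=
  ⟨(h.1.comp (contDiff_id.div_const δ)).div_const δ,
    (h.2.comp_homeomorph (Homeomorph.mulRight₀ δ⁻¹ (inv_ne_zero hδ.ne'))).comp_left
      (g := fun x : ℝ => x / δ) (zero_div δ)⟩

lemma sq2_sub (x y : R2) : sq2 (x - y) = ∑ j, qol j x * pol j y := by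
  simp only [sq2, qol, pol, d2, Fin.sum_univ_four, Pi.sub_apply, Matrix.cons_val]
  ring

end Cvr

open Cvr

variable {D : Type*} [NormedAddCommGroup D] [InnerProductSpace ℂ D]

theorem cv_row (c : Ctx D) : T3 c → ANN → CV c := fun t a => by
  refine ⟨fun w F => (w0L_apply w F).symm, fun e w h => (cov_tp h).cv t.grp,
    fun W h => ⟨(cov_W h).cv t.grp, (cov_W' h).cv t.grp⟩, fun w W F hw hW hF => ?_,
    fun w W F hw hW hF => ?_, fun W h g F hW hh hg e => prod hW hh hg e,
    fun W κ f ρ θ1 δ L hW hκ hf hρ h1 hδ hL => ?_⟩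
  · simp only [w1L, w0L_apply, ContinuousLinearMap.comp_apply, late hw hW _ _ hF]
  · simp only [w0L_apply, early hw hW _ _ hF]
  · have d1 := fun j => Far.dc_pr (tst_wt (smooth_qol j) (Far.tst_kL hκ hL)) (tst_dlt hρ hδ)
    have d2' := fun j => Far.dc_pr (tst_wt (smooth_pol j) hf) h1
    have e : pairF sq2 κ f ρ θ1 δ L = ∑ j, ST.tens (sch (pr (wt (qol j) (kL κ L)) (dlt δ ρ)))
        (sch (pr (wt (pol j) f) θ1)) := by
      ext z
      rw [a.app sq2 κ f ρ θ1 δ L (smooth_d2 contDiff_id contDiff_id) hκ hf hρ h1 hδ hL, sq2_sub]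
      simp only [SchwartzMap.sum_apply, ST.tens_apply, Far.sch_apply (d1 _), Far.sch_apply (d2' _),
        pr, wt, pl_2, Finset.sum_mul, Complex.ofReal_sum, ← Complex.ofReal_mul]
      exact Finset.sum_congr rfl fun j _ => congrArg _ (by ring)
    have p := fun j => prod hW (F := ST.tens (sch (pr (wt (qol j) (kL κ L)) (dlt δ ρ)))
      (sch (pr (wt (pol j) f) θ1))) (Far.isTest_dc (d1 j)) (Far.isTest_dc (d2' j)) fun x y => by
        rw [ST.tens_apply, Far.sch_apply (d1 j), Far.sch_apply (d2' j)]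
    rw [e, map_sum, map_sum]
    exact ⟨Finset.sum_congr rfl fun j _ => (p j).1, Finset.sum_congr rfl fun j _ => (p j).2⟩

end

end Vale.Agent.P352X.CK
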