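import Vale.Agent.P352X.R.CONK.Spec
import Vale.Agent.P352X.R.IB.Dt

/-!
# P352X, row CK.dt, and the third part of row CK.norm (helper83)
-/

set_option linter.all false

open MeasureTheory Filter Topology Set
open scoped SchwartzMap Real

namespace Vale.Agent.P352X.CK

open Vale.Agent.P352 Vale.Agent.P352.GF Vale.Agent.P352.H755
open UniformSpace (Completion)

noncomputable section

variable {D : Type*} [NormedAddCommGroup D] [InnerProductSpace ℂ D]

theorem dt_thm (c : Ctx D) : DT c := fun ell c0 h g hg => by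
  obtain ⟨C, h0, hC⟩ := Ib.dt_sq h (sch g)
  rw [Api4.coe_sch hg] at hC
  refine ⟨Api4.coe_sch hg ▸ memLp_ft3_m3 (sch g), √C, Real.sqrt_nonneg _, fun φ hφ => ?_⟩
  have := hC (Ib.S1 φ)
  have e : (fun t : ℝ => (t : ℂ) * deriv (cx φ) t) = cx fun t => t * deriv φ t := funext fun t => by
    rw [show deriv (cx φ) t = _ from
      (hφ.1.differentiable (by simp) t).hasDerivAt.ofReal_comp.deriv, cx, Complex.ofReal_mul]
  rw [Ib.S1_coe hφ, e] at this
  refine (Real.le_sqrt_of_sq_le this).trans ?_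
  rw [Real.sqrt_mul h0]
  refine mul_le_mul_of_nonneg_left (Real.sqrt_le_iff.2 ⟨add_nonneg (Real.sqrt_nonneg _)
    (Real.sqrt_nonneg _), ?_⟩) (Real.sqrt_nonneg _)
  rw [add_sq, n2, n2, ← Ib.q2, ← Ib.q2, Real.sq_sqrt (Ib.q2_nonneg _), Real.sq_sqrt (Ib.q2_nonneg _)]
  exact add_le_add_left (le_add_of_nonneg_right (by positivity)) _

theorem dt_row (c : Ctx D) : T3 c → DT c := fun _ => dt_thm c

lemma m3_le {g : P3 → ℂ} (hg : Dc g) :
    ∫ k, ‖ft3 g k‖ ^ 2 ∂m3 ≤ (2 * π) ^ 3 * ∫ y, ‖da g y‖ ^ 2 := by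
  obtain ⟨G, rfl⟩ := Ap.dc_sw hg
  obtain ⟨G', e⟩ := Ap.sw_fderiv (1, 0) (Ap.sw_coe G)
  rw [integral_m3, show da G = G' from e.symm, ← ft3_plancherel_norm]
  refine (le_of_eq (integral_congr_ae (.of_forall fun k => ?_))).trans (setIntegral_le_integral
    (Ib.int_sq (Ib.sw_ft3 G')) (.of_forall fun _ => sq_nonneg _))
  simp only [e, ft3_fd]
  simp [mul_pow, d2]

/-- the third part of `NORM` -/
theorem norm3 {c : Ctx D} (h : ELL c) : ∃ C : ℝ, 0 ≤ C ∧ ∀ (g : P3 → ℂ) (φ : ℝ → ℂ), Dc g → Dc φ →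
    ‖c.Th (pf g φ)‖ ≤ C * n2 (da g) * n2 (deriv φ) := by
  obtain ⟨ell, c0, h⟩ := h
  have h0 := h.nonneg
  refine ⟨√(9 * c0 * (2 * π) ^ 3 * (8 * π)), Real.sqrt_nonneg _, fun g φ hg hφ => ?_⟩
  have := Ib.th_sq h (sch g) (sch φ)
  rw [Api4.coe_sch hg, Api4.coe_sch hφ] at this
  rw [n2, n2, ← Real.sqrt_mul (by positivity), ← Real.sqrt_mul (by positivity)]
  refine Real.le_sqrt_of_sq_le (this.trans ((mul_le_mul_of_nonneg_right
    (mul_le_mul_of_nonneg_left (m3_le hg) (by positivity))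
    (mul_nonneg (by positivity) (Ib.q2_nonneg _))).trans_eq ?_))
  rw [Ib.q2]
  ring

end

end Vale.Agent.P352X.CK
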