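import Vale.Agent.P352X.R.CONK.Spec
import Vale.Agent.P352X.Api1C
import Vale.Agent.P352X.Api2
import Vale.Agent.P352X.ST.Ops

/-!
# P352X, block CONK: row NEAR (helper71)
-/

set_option linter.all false

open MeasureTheory Filter Topology
open scoped SchwartzMap ComplexConjugate ENNReal ContDiff

namespace Vale.Agent.P352X.CK

open Vale.Agent.P352 Vale.Agent.P352.GF Vale.Agent.P352.BW Vale.Agent.P352.H246
open Vale.Agent.P352.H496 Vale.Agent.P352.H755 Vale.Agent.P352.H15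
open UniformSpace (Completion)
open Complex (I)

noncomputable section

namespace Near

/-! ### bounds for test functions -/

section bd

variable {E F : Type*} [NormedAddCommGroup E] [NormedSpace ℝ E] [NormedAddCommGroup F]
  [NormedSpace ℝ F]

/-- compactly supported functions have bounded derivatives -/
lemma bd_cs {f : E → F} (hf : Ap.Cs f) (n : ℕ) : ∃ C, 0 ≤ C ∧ ST.Bd (fun _ => C) n f := by
  choose C h0 hC using Ap.cs_bd hf
  refine ⟨∑ i ∈ Finset.range (n + 1), C i, Finset.sum_nonneg fun i _ => h0 i, hf.1,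
    fun i hi z => (hC i z).trans ?_⟩
  exact Finset.single_le_sum (fun j _ => h0 j) (Finset.mem_range.2 (Nat.lt_succ_of_le hi))

/-- functions with support in a ball -/
lemma sn_ball {g : 𝓢(E, F)} {K r : ℝ} {N l : ℕ} (h : ST.Bd (fun z => K * (1 + ‖z‖) ^ l) N g)
    (hr : 0 ≤ r) (hs : ∀ z, g z ≠ 0 → ‖z‖ ≤ r) : ST.sn E F N g ≤ K * (1 + r) ^ (N + l) := by
  have hK : 0 ≤ K := by simpa using h.nonneg 0
  have ht : tsupport g ⊆ {z | ‖z‖ ≤ r} :=
    Ap.tsupp_sub (isClosed_le continuous_norm continuous_const) hs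
  have h' : ST.Bd (fun z => if ‖z‖ ≤ r then K * (1 + r) ^ l else 0) N g := by
    refine ⟨h.1, fun i hi z => ?_⟩
    beta_reduce
    split_ifs with hz
    · refine (h.2 i hi z).trans ?_
      have := norm_nonneg z
      beta_reduce
      gcongr
    · have : iteratedFDeriv ℝ i g z = 0 := by
        by_contra hne
        exact hz (ht (support_iteratedFDeriv_subset i hne))
      rw [this, norm_zero]
  refine h'.sn_le fun z => ?_
  split_ifs with hz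
  · have := norm_nonneg z
    calc (1 + ‖z‖) ^ N * (K * (1 + r) ^ l) ≤ (1 + r) ^ N * (K * (1 + r) ^ l) := by gcongr
      _ = _ := by ring
  · rw [mul_zero]; positivity

end bd

/-- the scaling of the plane as a linear map -/
def kM (A : ℝ) : P3 →L[ℝ] P3 :=
  (A⁻¹ • ContinuousLinearMap.fst ℝ ℝ R2).prod ((Real.sqrt A)⁻¹ • ContinuousLinearMap.snd ℝ ℝ R2)

lemma kL_eq (κ : P3 → ℝ) (A : ℝ) (y : P3) : kL κ A y = κ (kM A y) := by
  simp [kL, kM, div_eq_inv_mul]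

lemma norm_kM {A : ℝ} (hA : 1 ≤ A) : ‖kM A‖ ≤ 1 := by
  have h1 : 1 ≤ Real.sqrt A := Real.one_le_sqrt.2 hA
  refine ContinuousLinearMap.opNorm_le_bound _ zero_le_one fun y => ?_
  rw [one_mul]
  refine norm_prod_le_iff.2 ⟨?_, ?_⟩
  · change ‖A⁻¹ • y.1‖ ≤ _
    rw [norm_smul, Real.norm_of_nonneg (by positivity)]
    exact (mul_le_of_le_one_left (norm_nonneg _) (inv_le_one_of_one_le₀ hA)).trans (norm_fst_le y)
  · change ‖(Real.sqrt A)⁻¹ • y.2‖ ≤ _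
    rw [norm_smul, Real.norm_of_nonneg (by positivity)]
    exact (mul_le_of_le_one_left (norm_nonneg _) (inv_le_one_of_one_le₀ h1)).trans (norm_snd_le y)

lemma le_kM {A : ℝ} (hA : 1 ≤ A) (y : P3) : ‖y‖ ≤ A * ‖kM A y‖ := by
  have h1 : 1 ≤ Real.sqrt A := Real.one_le_sqrt.2 hA
  have h2 : Real.sqrt A ≤ A := Real.sqrt_le_iff.2 ⟨by linarith, by nlinarith⟩
  have a1 : ‖A⁻¹ • y.1‖ ≤ ‖kM A y‖ := norm_fst_le (kM A y)
  have a2 : ‖(Real.sqrt A)⁻¹ • y.2‖ ≤ ‖kM A y‖ := norm_snd_le (kM A y)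
  rw [norm_smul, Real.norm_of_nonneg (by positivity), inv_mul_le_iff₀ (by linarith)] at a1 a2
  exact norm_prod_le_iff.2 ⟨a1, a2.trans (by gcongr)⟩

lemma temp_sq : (fun z : V × V => sq2 (tx z.1 - tx z.2)).HasTemperateGrowth := by
  let L : Fin 2 → (V × V →L[ℝ] ℝ) := fun i => ContinuousLinearMap.proj (R := ℝ) i ∘L txL ∘L
    (ContinuousLinearMap.fst ℝ V V - ContinuousLinearMap.snd ℝ V V)
  have := ((L 0).hasTemperateGrowth.mul (L 0).hasTemperateGrowth).add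
    ((L 1).hasTemperateGrowth.mul (L 1).hasTemperateGrowth)
  rw [show (fun z : V × V => sq2 (tx z.1 - tx z.2)) = ⇑(L 0) * ⇑(L 0) + ⇑(L 1) * ⇑(L 1) from
    funext fun z => by simp [L, sq2, d2]]
  exact this

lemma smooth_sq : ContDiff ℝ ∞ sq2 := smooth_d2 contDiff_id contDiff_id

/-- the pair test function with the profile `ρ` -/
def P (κ f : P3 → ℝ) (A : ℝ) (ρ φ : ℝ → ℝ) : S2 := pairF sq2 κ f ρ φ 1 A

lemma P_apply (an : ANN) {κ f : P3 → ℝ} {A : ℝ} {ρ φ : ℝ → ℝ} (hκ : Tst κ) (hf : Tst f)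
    (hA : 1 ≤ A) (hρ : Tst ρ) (hφ : Tst φ) (z : V × V) : P κ f A ρ φ z =
      ((sq2 (tx z.1 - tx z.2) * (kL κ A (pl z.1) * ρ (be z.1)) * (f (pl z.2) * φ (be z.2)) : ℝ) : ℂ) := by
  rw [P, an.app _ _ _ _ _ _ _ smooth_sq hκ hf hρ hφ one_pos (by linarith)]
  simp only [dlt, div_one]

/-- the Schwartz norms of the pair test function -/
lemma sn_P (an : ANN) (N : ℕ) : ∃ m : ℕ, ∀ (κ f : P3 → ℝ) (φ : ℝ → ℝ), Tst κ → Tst f → Tst φ →
    ∃ C, 0 ≤ C ∧ ∀ (ρ : ℝ → ℝ) (M A : ℝ), Tst ρ → tsupport ρ ⊆ Set.Icc (-1) 1 →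
      ST.Bd (fun _ => M) N ρ → 1 ≤ A → ST.sn _ _ N (P κ f A ρ φ) ≤ C * A ^ m * M := by
  obtain ⟨l, C1, hC1, b1⟩ := ST.bd_of_temperate temp_sq N
  refine ⟨N + l, fun κ f φ hκ hf hφ => ?_⟩
  obtain ⟨C2, hC2, b2⟩ := bd_cs hκ N
  obtain ⟨C3, hC3, b3⟩ := bd_cs hf N
  obtain ⟨C4, hC4, b4⟩ := bd_cs hφ N
  obtain ⟨r2, hr2, s2⟩ := hκ.2.isCompact.isBounded.exists_pos_norm_le
  obtain ⟨r3, hr3, s3⟩ := hf.2.isCompact.isBounded.exists_pos_norm_le
  obtain ⟨r4, hr4, s4⟩ := hφ.2.isCompact.isBounded.exists_pos_norm_le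
  set a : ℝ := (1 + ‖plL‖) ^ N with ha
  set b : ℝ := (1 + ‖beL‖) ^ N with hb
  refine ⟨2 ^ N * 2 ^ N * C1 * (2 ^ N * (a * C2 * b)) * (2 ^ N * (a * C3 * (b * C4))) *
    (2 + 2 * r2 + 2 * r3 + r4) ^ (N + l), by positivity, fun ρ M A hρ sρ bρ hA => ?_⟩
  have hM : 0 ≤ M := bρ.nonneg 0
  have c2 : ST.Bd (fun _ => C2) N fun y => κ (kM A y) := by
    simpa using b2.comp (kM A) le_rfl (norm_kM hA)
  have d1 := ((c2.comp' plL).smul (bρ.comp' beL)).fst (E' := V)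
  have d2 := ((b3.comp' plL).smul (b4.comp' beL)).snd (E' := V)
  have d3 := ((b1.smul d1).smul d2).ofReal
  have d4 : ST.Bd (fun z => 2 ^ N * 2 ^ N * C1 * (2 ^ N * (a * C2 * (b * M))) *
      (2 ^ N * (a * C3 * (b * C4))) * (1 + ‖z‖) ^ l) N (P κ f A ρ φ) :=
    (d3.mono fun z => le_of_eq (by simp only [ha, hb]; ring)).congr fun z => by
      rw [P_apply an hκ hf hA hρ hφ, kL_eq]
      rfl
  have hs : ∀ z, P κ f A ρ φ z ≠ 0 → ‖z‖ ≤ (1 + 2 * r2 + 2 * r3 + r4) * A := by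
    intro z hz
    rw [P_apply an hκ hf hA hρ hφ, Complex.ofReal_ne_zero, kL_eq] at hz
    have h1 := right_ne_zero_of_mul (left_ne_zero_of_mul hz)
    have h2 := right_ne_zero_of_mul hz
    have e1 := s2 _ (subset_tsupport _ (left_ne_zero_of_mul h1))
    have e2 := sρ (subset_tsupport _ (right_ne_zero_of_mul h1))
    have e3 := s3 _ (subset_tsupport _ (left_ne_zero_of_mul h2))
    have e4 := s4 _ (subset_tsupport _ (right_ne_zero_of_mul h2))
    have e5 : ‖pl z.1‖ ≤ A * r2 := (le_kM hA _).trans (by gcongr)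
    have key : ∀ y : V, ‖y‖ ≤ 2 * ‖pl y‖ + |be y| := fun y => by
      have := norm_pt_le (tx y) (al y) (be y)
      rw [pt_eta] at this
      have p1 : |al y| ≤ ‖pl y‖ := norm_fst_le (pl y)
      have p2 : ‖tx y‖ ≤ ‖pl y‖ := norm_snd_le (pl y)
      linarith
    have e6 : |be z.1| ≤ 1 := abs_le.2 e2
    have e7 : |be z.2| ≤ r4 := e4
    refine norm_prod_le_iff.2 ⟨(key _).trans ?_, (key _).trans ?_⟩ <;> nlinarith
  refine (sn_ball d4 (by positivity) hs).trans ?_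
  have : (1 + (1 + 2 * r2 + 2 * r3 + r4) * A) ^ (N + l) ≤
      ((2 + 2 * r2 + 2 * r3 + r4) * A) ^ (N + l) := by
    gcongr
    linarith
  refine (mul_le_mul_of_nonneg_left this (by positivity)).trans (le_of_eq ?_)
  rw [mul_pow]
  ring

/-! ### profiles -/

/-- bounds for the derivatives of order less than `i` and for the integral -/
def Nb (i : ℕ) (ρ : ℝ → ℝ) (M : ℝ) : Prop :=
  (∀ l < i, ∀ t, ‖iteratedFDeriv ℝ l ρ t‖ ≤ M) ∧ ∫ t, |ρ t| ≤ M

lemma Nb.nonneg {i : ℕ} {ρ : ℝ → ℝ} {M : ℝ} (h : Nb i ρ M) : 0 ≤ M :=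
  (integral_nonneg fun _ => abs_nonneg _).trans h.2

lemma ex_Nb {χ : ℝ → ℝ} (h : Tst χ) (i : ℕ) : ∃ M, Nb i χ M := by
  obtain ⟨C, -, b⟩ := bd_cs h i
  exact ⟨max C (∫ t, |χ t|), fun l hl t => (b.2 l hl.le t).trans (le_max_left _ _), le_max_right _ _⟩

lemma int_le {R : ℝ → ℝ} {K : ℝ} (hs : tsupport R ⊆ Set.Icc (-1) 1) (h : ∀ t, |R t| ≤ K) :
    ∫ t, |R t| ≤ 2 * K := by
  rw [← setIntegral_eq_integral_of_forall_compl_eq_zero (s := Set.Icc (-1) 1) fun t ht => by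
    rw [image_eq_zero_of_notMem_tsupport fun k => ht (hs k), abs_zero]]
  refine (le_abs_self _).trans ((norm_setIntegral_le_of_norm_le_const (C := K)
    (f := fun t => |R t|) measure_Icc_lt_top fun t _ => by simpa using h t).trans (le_of_eq ?_))
  simp only [Real.volume_real_Icc]
  norm_num [mul_comm]

lemma Nb.prim {i : ℕ} {ρ R χ : ℝ → ℝ} {M Mχ C : ℝ} (h : Nb i ρ M) (hχ : Nb (i + 1) χ Mχ)
    (tρ : Tst ρ) (tχ : Tst χ) (tR : Tst R) (hs : tsupport R ⊆ Set.Icc (-1) 1) (hC : 0 ≤ C)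
    (e : ∀ t, ρ t = deriv R t + (∫ t, ρ t) * χ t) (hR : ∀ t, |R t| ≤ C * ∫ t, |ρ t|) :
    Nb (i + 1) R ((1 + Mχ + 2 * C) * M) := by
  have hM := h.nonneg
  have hMχ := hχ.nonneg
  have h0 : ∀ t, |R t| ≤ C * M := fun t => (hR t).trans (mul_le_mul_of_nonneg_left h.2 hC)
  refine ⟨fun l hl t => ?_, (int_le hs h0).trans (by nlinarith)⟩
  rcases l with _ | l
  · rw [norm_iteratedFDeriv_zero]
    exact (h0 t).trans (by nlinarith)
  · have hl' : l < i := Nat.lt_of_succ_lt_succ hl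
    have b1 : ST.Bd (fun _ => M) l ρ := ⟨tρ.1, fun j hj => h.1 j (hj.trans_lt hl')⟩
    have b2 : ST.Bd (fun _ => Mχ) l χ := ⟨tχ.1, fun j hj => hχ.1 j (by omega)⟩
    have b3 := (b1.sub (b2.const_smul (∫ t, ρ t))).congr (ψ := deriv R) fun t => by
      rw [e t, smul_eq_mul]
      ring
    have hc : ‖∫ t, ρ t‖ ≤ M := (norm_integral_le_integral_norm _).trans h.2
    rw [norm_iteratedFDeriv_eq_norm_iteratedDeriv, iteratedDeriv_succ',
      ← norm_iteratedFDeriv_eq_norm_iteratedDeriv]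
    refine (b3.2 l le_rfl t).trans ?_
    nlinarith [mul_le_mul_of_nonneg_right hc hMχ]

/-! ### translations along `b` -/

variable {D : Type*} [NormedAddCommGroup D] [InnerProductSpace ℂ D] {c : Ctx D}

lemma perp_gen (g : GRP c) {ψ : Completion D} (h0 : inner ℂ c.Om ψ = 0) (h : Dm (Pb c.Q) ψ) :
    inner ℂ c.Om (gen (Pb c.Q) ψ) = 0 := by
  rw [g.ugPb.symm (gn_of_fix fun t => g.vac _ _ _) h.gn, inner_zero_left]

lemma der (t : T3 c) {R : S2 →L[ℂ] Completion D} (hR : Cv c R) (F F' : S2)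
    (e : ∀ z, F' z = fderiv ℝ F z (vb, vb)) {ψ : Completion D} (h0 : inner ℂ c.Om ψ = 0)
    (h : Dm (Pb c.Q) ψ) : inner ℂ (R F') ψ = I * inner ℂ (R F) (gen (Pb c.Q) ψ) := by
  let G : ℝ → S2 := fun s => F.compSubConstCLM ℂ (-(s • ((vb, vb) : V × V)))
  have hG : ∀ s z, G s z = F (z + s • (vb, vb)) := fun s z => by
    simp only [G, SchwartzMap.compSubConstCLM_apply, sub_neg_eq_add]
  have h1 : ∀ s, inner ℂ (R (G s)) ψ = inner ℂ (R F) (Pb c.Q s ψ) := fun s => by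
    obtain ⟨κ, hκ⟩ := hR.tra (s • vb) F (G s) fun x y => hG s (x, y)
    have h2 : inner ℂ c.Om (Pb c.Q s ψ) = 0 := by
      rw [← h0, ← t.grp.ugPb.inn s c.Om ψ]
      exact congrArg (inner ℂ · _) (t.grp.vac _ _ _).symm
    rw [hκ, inner_add_left, inner_smul_left, h2, mul_zero, add_zero]
    exact (t.grp.ugPb.inn s _ _).symm
  have h2 := t.lie.der (V × V) (fun _ => 1) (fun s => s • (vb, vb)) 0 (vb, vb) F F' G
    (hasDerivAt_const _ _) (by simpa using (hasDerivAt_id (0 : ℝ)).smul_const ((vb, vb) : V × V))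
    rfl (zero_smul _ _) (.of_forall fun s z => hG s z) fun z => by simpa using e z
  have h3 : HasDerivAt (fun s => inner ℂ (R F) (Pb c.Q s ψ))
      (inner ℂ (R F) (I • gen (Pb c.Q) ψ)) 0 := by
    simpa using (hasDerivAt_const (0 : ℝ) (R F)).inner ℂ h.gn
  rw [hasDerivAt_iff_tendsto_slope_zero] at h3
  have h4 := ((R.continuous.tendsto _).comp h2).inner (𝕜 := ℂ) (tendsto_const_nhds (x := ψ))
  rw [← inner_smul_right]
  refine tendsto_nhds_unique h4 (h3.congr fun s => ?_)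
  have h5 : R F = R (G 0) := by
    congr 1
    ext z
    simp [hG]
  rw [zero_add, ← h1, ← h1, ← h5, Function.comp, R.map_smul_of_tower, map_sub,
    ← Complex.coe_smul s⁻¹ (R (G s) - R F), inner_smul_left, inner_sub_left, Complex.conj_ofReal,
    Complex.real_smul]

lemma P_der (an : ANN) {κ f : P3 → ℝ} {A : ℝ} {ρ φ : ℝ → ℝ} (hκ : Tst κ) (hf : Tst f)
    (hA : 1 ≤ A) (hρ : Tst ρ) (hφ : Tst φ) (z : V × V) :
    (P κ f A (deriv ρ) φ + P κ f A ρ (deriv φ)) z = fderiv ℝ (P κ f A ρ φ) z (vb, vb) := by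
  have h1 : HasDerivAt (fun s : ℝ => P κ f A ρ φ (z + s • (vb, vb)))
      (fderiv ℝ (P κ f A ρ φ) z (vb, vb)) 0 := by
    have := ((P κ f A ρ φ).differentiableAt (x := z)).hasFDerivAt.hasLineDerivAt (vb, vb)
    exact this
  have a1 : HasDerivAt (fun s : ℝ => ρ (be z.1 + s)) (deriv ρ (be z.1)) 0 := by
    have := (hρ.1.differentiable (by simp) (be z.1 + 0)).hasDerivAt.comp_const_add (be z.1) 0
    simpa using this
  have a2 : HasDerivAt (fun s : ℝ => φ (be z.2 + s)) (deriv φ (be z.2)) 0 := by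
    have := (hφ.1.differentiable (by simp) (be z.2 + 0)).hasDerivAt.comp_const_add (be z.2) 0
    simpa using this
  have h2 := (((a1.const_mul (kL κ A (pl z.1))).const_mul (sq2 (tx z.1 - tx z.2))).mul
    (a2.const_mul (f (pl z.2)))).ofReal_comp
  refine Eq.trans ?_ (h2.unique (h1.congr_of_eventuallyEq (.of_forall fun s => ?_)))
  · rw [SchwartzMap.add_apply, P_apply an hκ hf hA (Ap.cs_deriv hρ) hφ,
      P_apply an hκ hf hA hρ (Ap.cs_deriv hφ)]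
    push_cast
    simp only [add_zero]
  · beta_reduce
    rw [P_apply an hκ hf hA hρ hφ]
    simp [pl]

lemma P_lin (an : ANN) {κ f : P3 → ℝ} {A a : ℝ} {ρ ρ1 χ φ : ℝ → ℝ} (hκ : Tst κ) (hf : Tst f)
    (hA : 1 ≤ A) (hρ : Tst ρ) (h1 : Tst ρ1) (hχ : Tst χ) (hφ : Tst φ)
    (e : ∀ t, ρ t = ρ1 t + a * χ t) :
    P κ f A ρ φ = P κ f A ρ1 φ + (a : ℂ) • P κ f A χ φ := by
  ext z
  rw [SchwartzMap.add_apply, SchwartzMap.smul_apply, P_apply an hκ hf hA hρ hφ,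
    P_apply an hκ hf hA h1 hφ, P_apply an hκ hf hA hχ hφ, e, smul_eq_mul]
  push_cast
  ring

lemma Pk_succ {j : ℕ} {ψ : Completion D} {Λ : ℝ} (h : Pk c (j + 1) ψ Λ) :
    Pk c j ψ Λ ∧ Dm (Pb c.Q) ψ ∧ Pk c j (gen (Pb c.Q) ψ) Λ :=
  ⟨⟨fun l hl => h.1 l (by omega), fun l hl => h.2 l (by omega)⟩, h.1 0 (by omega),
    fun l hl => h.1 (l + 1) (by omega), fun l hl => h.2 (l + 1) (by omega)⟩

end Near

open Near in
theorem near_row {D : Type*} [NormedAddCommGroup D] [InnerProductSpace ℂ D] (c : Ctx D) :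
    T3 c → PRIM → ANN → NEAR c := by
  intro t ⟨χ, Cp, tχ, sχ, hCp, prim⟩ an R hR
  obtain ⟨C0, N, hC0, b0⟩ := ST.clm_sn_c R
  obtain ⟨m, hm⟩ := sn_P an N
  refine ⟨N + 1, m, fun κ f θ1 hκ hf hθ => ?_⟩
  have sχ' : tsupport χ ⊆ Set.Icc (-1) 1 := sχ.trans (Set.Icc_subset_Icc_left (by norm_num))
  have key : ∀ j i, i + j = N + 1 → ∀ φ, Tst φ → ∃ C, 0 ≤ C ∧ ∀ ρ (M A : ℝ) ψ (Λ : ℝ), Tst ρ →
      tsupport ρ ⊆ Set.Icc (-1) 1 → Nb i ρ M → 1 ≤ A → inner ℂ c.Om ψ = 0 → Pk c j ψ Λ →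
      ‖inner ℂ (R (P κ f A ρ φ)) ψ‖ ≤ C * (A ^ m * M * Λ) := by
    intro j
    induction j with
    | zero =>
      intro i hi φ hφ
      obtain ⟨C, hC, h⟩ := hm κ f φ hκ hf hφ
      refine ⟨C0 * C, by positivity, fun ρ M A ψ Λ hρ sρ hN hA _ hP => ?_⟩
      have h1 := h ρ M A hρ sρ ⟨hρ.1, fun l hl => hN.1 l (by omega)⟩ hA
      have h2 : ‖ψ‖ ≤ Λ := hP.2 0 le_rfl
      have hM := hN.nonneg
      refine (norm_inner_le_norm _ _).trans ((mul_le_mul ((b0 _).trans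
        (mul_le_mul_of_nonneg_left h1 hC0)) h2 (norm_nonneg _) (by positivity)).trans (le_of_eq ?_))
      ring
    | succ j ih =>
      intro i hi φ hφ
      obtain ⟨C1, hC1, h1⟩ := ih (i + 1) (by omega) φ hφ
      obtain ⟨C2, hC2, h2⟩ := ih (i + 1) (by omega) (deriv φ) (Ap.cs_deriv hφ)
      obtain ⟨Mχ, hχ⟩ := ex_Nb tχ (i + 1)
      have hMχ := hχ.nonneg
      refine ⟨(C1 + C2) * (1 + Mχ + 2 * Cp) + C1 * Mχ, by positivity,
        fun ρ M A ψ Λ hρ sρ hN hA h0 hP => ?_⟩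
      obtain ⟨Rr, tR, sR, e, hRb⟩ := prim ρ hρ sρ
      obtain ⟨p1, p2, p3⟩ := Pk_succ hP
      have nR := hN.prim hχ hρ tχ tR sR hCp e hRb
      have a1 := h1 Rr _ A _ Λ tR sR nR hA (perp_gen t.grp h0 p2) p3
      have a2 := h2 Rr _ A _ Λ tR sR nR hA h0 p1
      have a3 := h1 χ _ A _ Λ tχ sχ' hχ hA h0 p1
      have a4 := der t hR _ _ (P_der an hκ hf hA tR hφ) h0 p2
      rw [map_add, inner_add_left] at a4
      have hc : ‖∫ t, ρ t‖ ≤ M := (norm_integral_le_integral_norm _).trans hN.2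
      have hΛ : 0 ≤ Λ := (norm_nonneg _).trans (hP.2 0 (by omega))
      have hA0 : 0 ≤ A := by linarith
      rw [P_lin an hκ hf hA hρ (Ap.cs_deriv tR) tχ hφ e, map_add, map_smul, inner_add_left,
        inner_smul_left, eq_sub_of_add_eq a4, Complex.conj_ofReal]
      refine (norm_add_le _ _).trans ((add_le_add (norm_sub_le _ _) le_rfl).trans ?_)
      rw [norm_mul, norm_mul, Complex.norm_I, one_mul, Complex.norm_real]
      refine (add_le_add (add_le_add a1 a2) (mul_le_mul hc a3 (norm_nonneg _) hN.nonneg)).trans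
        (le_of_eq ?_)
      ring
  obtain ⟨C, hC, h⟩ := key (N + 1) 0 (by omega) θ1 hθ
  refine ⟨C, hC, fun ρ δ A ψ Λ hρ sρ hδ hδ1 hA h0 hP => ?_⟩
  have t1 : Tst (dlt δ ρ) := by
    rw [show dlt δ ρ = fun s => δ⁻¹ * ρ (δ⁻¹ • s) from funext fun s => by
      simp [dlt, div_eq_inv_mul]]
    exact Ap.cs_cmul δ⁻¹ (Ap.cs_smul (inv_ne_zero hδ.ne') hρ)
  have s1 : tsupport (dlt δ ρ) ⊆ Set.Icc (-1) 1 := Ap.tsupp_sub isClosed_Icc fun s hs => by
    obtain ⟨h1, h2⟩ := sρ (subset_tsupport ρ (a := s / δ) fun k => hs (by rw [dlt, k, zero_div]))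
    rw [le_div_iff₀ hδ] at h1
    rw [div_le_iff₀ hδ] at h2
    constructor <;> linarith
  have i1 : ∫ s, |dlt δ ρ s| = ∫ s, |ρ s| := by
    simp only [dlt, abs_div, abs_of_pos hδ]
    rw [integral_div, Measure.integral_comp_div (fun s => |ρ s|), abs_of_pos hδ, smul_eq_mul,
      mul_div_cancel_left₀ _ hδ.ne']
  have := h (dlt δ ρ) _ A ψ Λ t1 s1 ⟨fun l hl => absurd hl (Nat.not_lt_zero l), i1.le⟩ hA h0 hP
  have e : pairF sq2 κ f ρ θ1 δ A = P κ f A (dlt δ ρ) θ1 := by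
    simp only [P, pairF, dlt, div_one]
  rw [e]
  exact this.trans (le_of_eq (by ring))

end

end Vale.Agent.P352X.CK
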