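import Vale.Agent.P352X.R.CONK.Spec
import Vale.Agent.P352X.Api2

/-!
# P352X, block CONK, row PRIM
-/

set_option linter.all false

open MeasureTheory Filter Topology Set
open scoped ContDiff

namespace Vale.Agent.P352X.CK

open Vale.Agent.P352.H755 Vale.Agent.P352X.Ap

/-- primitives of test functions with integral zero -/
theorem prim0 {g : ℝ → ℝ} {a b : ℝ} (hg : Tst g) (hs : tsupport g ⊆ Icc a b) (h0 : ∫ t, g t = 0) :
    ∃ R, Tst R ∧ tsupport R ⊆ Icc a b ∧ (∀ t, deriv R t = g t) ∧ ∀ t, |R t| ≤ ∫ t, |g t| := by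
  have hc := hg.1.continuous
  have hi : Integrable g := cs_int hg
  have hz : ∀ t, t ∉ Icc a b → g t = 0 := fun t h => by
    by_contra k
    exact h (hs (subset_tsupport _ k))
  let R : ℝ → ℝ := fun t => ∫ s in (a - 1)..t, g s
  have hd : ∀ t, HasDerivAt R (g t) t := fun t => (hc.integral_hasStrictDerivAt _ t).hasDerivAt
  have hD : deriv R = g := funext fun t => (hd t).deriv
  have hs' : ∀ t, R t ≠ 0 → t ∈ Icc a b := fun t h => by
    by_contra k
    apply h
    rcases not_and_or.1 k with k | k
    · refine (intervalIntegral.integral_congr (g := fun _ => 0) fun s hs => hz s fun h' => ?_).trans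
        (by simp)
      rcases le_total (a - 1) t with e | e
      · rw [uIcc_of_le e] at hs
        exact k (h'.1.trans hs.2)
      · rw [uIcc_of_ge e] at hs
        linarith [hs.2, h'.1]
    · rw [← h0]
      refine intervalIntegral.integral_eq_integral_of_support_subset fun s h => ?_
      have := hs (subset_tsupport _ h)
      exact ⟨by linarith [this.1], this.2.trans (not_le.1 k).le⟩
  refine ⟨R, ⟨?_, HasCompactSupport.intro isCompact_Icc fun t h => by_contra fun k => h (hs' t k)⟩,
    tsupp_sub isClosed_Icc hs', fun t => congrFun hD t, fun t => ?_⟩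
  · exact contDiff_infty_iff_deriv.2 ⟨fun t => (hd t).differentiableAt, hD ▸ hg.1⟩
  · exact (intervalIntegral.norm_integral_le_integral_norm_uIoc (f := g)).trans
      (setIntegral_le_integral hi.norm (Eventually.of_forall fun _ => norm_nonneg _))

theorem prim_row : PRIM := by
  obtain ⟨χ, h1, h2, h3, h4⟩ := ex_rho (volume : Measure ℝ) (x := 1 / 2) (U := Icc 0 1)
    (Icc_mem_nhds (by norm_num) (by norm_num))
  refine ⟨χ, 2, h1, h2, by norm_num, fun ρ hρ hs => ?_⟩
  have hi : Integrable ρ := cs_int hρ
  have hχ : Integrable χ := cs_int h1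
  obtain ⟨R, a, b, c, d⟩ := prim0 (g := fun t => ρ t - (∫ t, ρ t) * χ t) (a := -1) (b := 1)
    (cs_sub hρ (cs_cmul _ h1)) (tsupp_sub isClosed_Icc fun t h => by
      by_cases k : ρ t = 0
      · have : χ t ≠ 0 := fun e => h (by simp [k, e])
        exact Icc_subset_Icc (by norm_num) le_rfl (h2 (subset_tsupport _ this))
      · exact hs (subset_tsupport _ k))
    (by rw [integral_sub hi (hχ.const_mul _), integral_const_mul, h4]; ring)
  refine ⟨R, a, b, fun t => by rw [c]; ring, fun t => (d t).trans ?_⟩
  calc ∫ t, |ρ t - (∫ t, ρ t) * χ t| ≤ ∫ t, (|ρ t| + |∫ t, ρ t| * χ t) :=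
        integral_mono (hi.sub (hχ.const_mul _)).abs (hi.abs.add (hχ.const_mul _)) fun t => by
          refine (abs_sub _ _).trans ?_
          rw [abs_mul, abs_of_nonneg (h3 t)]
    _ = (∫ t, |ρ t|) + |∫ t, ρ t| := by
        rw [integral_add hi.abs (hχ.const_mul _), integral_const_mul, h4, mul_one]
    _ ≤ _ := by linarith [abs_integral_le_integral_abs (μ := volume) (f := ρ)]

end Vale.Agent.P352X.CK
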