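import Vale.Agent.P352X.R.CONK.Spec
import Vale.Agent.P352X.Api2c

/-!
# P352X, block CONK, row UB: uniform bounds (helper76)
-/

set_option linter.all false

open MeasureTheory Filter Topology
open scoped SchwartzMap ComplexConjugate ENNReal ContDiff

namespace Vale.Agent.P352X.CK

open Vale.Agent.P352 Vale.Agent.P352.GF Vale.Agent.P352.BW Vale.Agent.P352.H246
open Vale.Agent.P352.H496 Vale.Agent.P352.H755 Vale.Agent.P352.H15
open UniformSpace (Completion)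
open Complex (I)

noncomputable section

namespace Ub

theorem smooth_qol (j : Fin 4) : ContDiff ℝ ∞ (qol j) := by
  fin_cases j <;> simp only [qol, d2] <;> simp <;> fun_prop

theorem smooth_pol (j : Fin 4) : ContDiff ℝ ∞ (pol j) := by
  fin_cases j <;> simp only [pol, d2] <;> simp <;> fun_prop

theorem tst_wt {p : R2 → ℝ} {g : P3 → ℝ} (hp : ContDiff ℝ ∞ p) (hg : Tst g) : Tst (wt p g) :=
  Ap.cs_mul_l (hp.comp contDiff_snd) hg

theorem tsupport_wt (p : R2 → ℝ) (g : P3 → ℝ) : tsupport (wt p g) ⊆ tsupport g :=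
  tsupport_mul_subset_right

/-- the weights `qol j` are homogeneous -/
theorem qol_kL (j : Fin 4) {A : ℝ} (hA : 1 ≤ A) : ∃ s, 0 ≤ s ∧ s ≤ A ∧
    ∀ g y, wt (qol j) (kL g A) y = s * kL (wt (qol j) g) A y := by
  have A0 : 0 < A := by linarith
  have p := Real.sqrt_pos.2 A0
  have q := Real.mul_self_sqrt A0.le
  have r : Real.sqrt A ≤ A := by nlinarith [Real.one_le_sqrt.2 hA]
  fin_cases j
  · refine ⟨A, A0.le, le_rfl, fun g y => ?_⟩
    simp only [wt, kL, qol, d2]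
    simp
    field_simp
    rw [Real.sq_sqrt A0.le]
  · refine ⟨_, p.le, r, fun g y => ?_⟩
    simp only [wt, kL, qol]
    simp
    field_simp
  · refine ⟨_, p.le, r, fun g y => ?_⟩
    simp only [wt, kL, qol]
    simp
    field_simp
  · exact ⟨1, zero_le_one, hA, fun g y => by simp [wt, kL, qol]⟩

variable {D : Type*} [NormedAddCommGroup D] [InnerProductSpace ℂ D] {c : Ctx D}

/-- the row `TAIL` with the weights `qol j` -/
theorem tailq (tl : TAIL c) : ∃ σ : ℝ, 0 < σ ∧ ∀ g, Tst g → ∃ C : ℝ, 0 ≤ C ∧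
    ∀ j ρ (A : ℝ) w (Λ : ℝ), Tst ρ → tsupport ρ ⊆ Set.Icc (-1) 1 → 1 ≤ A → Lw c w Λ →
      ‖inner ℂ ((Taa c (pr (wt (qol j) (kL g A)) ρ) c.Q.vac : D) : Completion D) w‖ ≤
        C * A ^ (-σ) * (∫ t, |ρ t|) * Λ := by
  obtain ⟨σ, σ0, h⟩ := tl
  refine ⟨σ, σ0, fun g hg => ?_⟩
  choose C C0 hC using fun j => h _ (tst_wt (smooth_qol j) hg)
  refine ⟨∑ j, C j, Finset.sum_nonneg fun j _ => C0 j, fun j ρ A w Λ hρ sρ hA hw => ?_⟩
  obtain ⟨s, s0, s1, e⟩ := qol_kL j hA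
  have A0 : 0 < A := by linarith
  have e' : pr (wt (qol j) (kL g A)) ρ = pr (kL (wt (qol j) g) A) fun t => s * ρ t := by
    funext z
    simp only [pr, e]
    congr 1
    ring
  have k := hC j (fun t => s * ρ t) A w Λ (Ap.cs_cmul s hρ) (tsupport_mul_subset_right.trans sρ)
    hA hw
  simp only [abs_mul, abs_of_nonneg s0, integral_const_mul] at k
  rw [e']
  refine k.trans ?_
  have l0 : 0 ≤ Λ := (norm_nonneg _).trans hw.n0
  have r0 : 0 ≤ ∫ t, |ρ t| := integral_nonneg fun t => abs_nonneg _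
  have := Finset.single_le_sum (fun j _ => C0 j) (Finset.mem_univ j)
  have := (C0 j).trans this
  calc _ ≤ (∑ j, C j) * A ^ (-1 - σ) * (A * ∫ t, |ρ t|) * Λ := by gcongr
    _ = _ := by
      rw [sub_eq_add_neg, Real.rpow_add A0, Real.rpow_neg_one]
      field_simp

theorem pairF_add (an : ANN) {p : R2 → ℝ} {κ g g' f : P3 → ℝ} {ρ θ1 : ℝ → ℝ} {δ L : ℝ}
    (hp : ContDiff ℝ ∞ p) (hκ : Tst κ) (hg : Tst g) (hg' : Tst g') (hf : Tst f) (hρ : Tst ρ)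
    (h1 : Tst θ1) (hδ : 0 < δ) (hL : 0 < L) (e : ∀ y, κ y = g y + g' y) :
    pairF p κ f ρ θ1 δ L = pairF p g f ρ θ1 δ L + pairF p g' f ρ θ1 δ L := by
  ext z
  rw [SchwartzMap.add_apply, an.app _ _ _ _ _ _ _ hp hκ hf hρ h1 hδ hL,
    an.app _ _ _ _ _ _ _ hp hg hf hρ h1 hδ hL, an.app _ _ _ _ _ _ _ hp hg' hf hρ h1 hδ hL]
  simp only [kL, e]
  push_cast
  ring

theorem smooth_sq2 : ContDiff ℝ ∞ sq2 := by
  unfold sq2 d2
  fun_prop

/-- the far annuli -/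
theorem far (t : Tools c) {w W κ f ρ θ1 θ a0 u0} (d : Dat c w W κ f ρ θ1 θ a0 u0) :
    ∃ C σ c1 : ℝ, 0 ≤ C ∧ 0 < σ ∧ 1 ≤ c1 ∧ ∀ (a : ℝ) ψ wR wL (Λ δ A : ℝ), 1 ≤ a →
      Tri c f θ1 a u0 ψ wR wL → (∀ j, Lw c (wR j) Λ ∧ Lw c (wL j) Λ) → 0 < δ → δ ≤ 1 → δ ≤ u0 →
      c1 * a ≤ A → ‖inner ℂ (w0L w (pairF sq2 (eu κ) f ρ θ1 δ A)) ψ‖ ≤ C * A ^ (-σ) * Λ := by
  obtain ⟨B, -, hB⟩ := Ap.ex_Icc d.t1
  obtain ⟨gL, gR, c0, A0, tL, tR, c00, A01, e, sL, hs⟩ := t.ann.split κ f B d.cut d.tf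
  obtain ⟨σ, σ0, ht⟩ := tailq t.tail
  obtain ⟨CL, CL0, hL⟩ := ht gL tL
  obtain ⟨CR, CR0, hR⟩ := ht gR tR
  have r0 : 0 ≤ ∫ t, |ρ t| := integral_nonneg fun t => abs_nonneg _
  have c2 : 0 < 2 / c0 := by positivity
  refine ⟨4 * (CL + CR) * ∫ t, |ρ t|, σ, A0 + 2 / c0, by positivity, σ0, by linarith,
    fun a ψ wR wL Λ δ A ha tri hw δ0 δ1 δu hA => ?_⟩
  have A1 : A0 ≤ A := by nlinarith
  have A2 : 1 ≤ A := A01.trans A1
  have A3 : 0 < A := by linarith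
  have A4 : 2 * a ≤ c0 * A := by
    have : c0 * ((A0 + 2 / c0) * a) = c0 * A0 * a + 2 * a := by field_simp
    nlinarith [mul_le_mul_of_nonneg_left hA c00.le, mul_pos (mul_pos c00 (one_pos.trans_le A01))
      (one_pos.trans_le ha)]
  have sρ : tsupport ρ ⊆ Set.Icc (-1) 1 :=
    d.sr.trans (Set.Icc_subset_Icc (by norm_num) (by norm_num))
  have td := Ap.tst_dlt d.tr δ0.ne'
  have sd := Ap.tsupport_dlt_Icc d.sr δ0
  have sd' : tsupport (dlt δ ρ) ⊆ Set.Icc (-1) 1 :=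
    sd.trans (Set.Icc_subset_Icc (by linarith) (by linarith))
  have id : ∫ t, |dlt δ ρ t| = ∫ t, |ρ t| := by
    simp only [Ap.abs_dlt δ0, Ap.integral_dlt δ0]
  obtain ⟨s1, s2⟩ := hs sq2 ρ θ1 δ A smooth_sq2 d.tr sρ d.t1 hB δ0 δ1 A1
  rw [pairF_add t.ann smooth_sq2 (t.ann.tst _ d.cut.1) tL tR d.tf d.tr d.t1 δ0 A3 e, map_add,
    t.cv.late w W _ d.tp d.isW s1, t.cv.early w W _ d.tp d.isW s2,
    (t.cv.pair W _ _ _ _ _ _ d.isW tL d.tf d.tr d.t1 δ0 A3).1,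
    (t.cv.pair W _ _ _ _ _ _ d.isW tR d.tf d.tr d.t1 δ0 A3).2, ← Finset.sum_add_distrib, sum_inner]
  refine (norm_sum_le_of_le (n := fun _ => (CL + CR) * A ^ (-σ) * (∫ t, |ρ t|) * Λ) _
    fun j _ => ?_).trans_eq (by simp; ring)
  have tq := fun g (hg : Tst g) => tst_wt (smooth_qol j) (Ap.tst_kL hg A3)
  rw [inner_add_left, tri.right j _ (Ap.in_pr (tq _ tR) td fun _ _ _ => trivial),
    tri.left j _ (Ap.in_pr (tq _ tL) td fun z h1 h2 => ⟨?_, ?_⟩), Ap.bar_pr]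
  · refine (norm_add_le _ _).trans ?_
    rw [norm_inner_symm]
    have := hL j _ A _ Λ td sd' A2 (hw j).2
    have := hR j _ A _ Λ td sd' A2 (hw j).1
    rw [id] at *
    linarith
  · have : al z / A ≤ -c0 := sL (Ap.tsupport_kL gL A (tsupport_wt _ _ h1))
    rw [div_le_iff₀ A3] at this
    linarith
  · linarith [(sd h2).1]

theorem int_le {F : ℝ → ℂ} {A L K σ : ℝ} (hA : 1 ≤ A) (hL : A ≤ L) (hσ : 0 < σ) (hK : 0 ≤ K)
    (h : ∀ t, A ≤ t → ‖F t‖ ≤ K * t ^ (-σ)) :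
    ‖∫ t in A..L, ((t⁻¹ : ℝ) : ℂ) * F t‖ ≤ K * A ^ (-σ) / σ := by
  have z : (0 : ℝ) ∉ Set.uIcc A L := fun k => by
    rw [Set.uIcc_of_le hL] at k
    linarith [k.1]
  refine (intervalIntegral.norm_integral_le_of_norm_le (g := fun t => K * t ^ (-σ - 1)) hL
    (.of_forall fun t ht => ?_)
    ((intervalIntegral.intervalIntegrable_rpow (.inr z)).const_mul K)).trans ?_
  · have t0 : 0 < t := by linarith [ht.1]
    rw [norm_mul, Complex.norm_real, Real.norm_of_nonneg (inv_pos.2 t0).le, Real.rpow_sub_one t0.ne']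
    refine (mul_le_mul_of_nonneg_left (h t ht.1.le) (inv_pos.2 t0).le).trans_eq (by ring)
  · rw [intervalIntegral.integral_const_mul, integral_rpow (.inr ⟨by linarith, z⟩),
      sub_add_cancel, mul_div_assoc, div_neg, ← neg_div, neg_sub]
    have : 0 ≤ L ^ (-σ) := Real.rpow_nonneg (by linarith) _
    gcongr
    linarith

end Ub

open Ub

theorem ub_row {D : Type*} [NormedAddCommGroup D] [InnerProductSpace ℂ D] (c : Ctx D)
    (t : Tools c) (near : NEAR c) (ab : AB c) : UB c := by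
  intro w W κ f ρ θ1 θ a0 u0 d
  obtain ⟨k, m, hn⟩ := near _ (t.cv.cvw _ _ d.tp)
  obtain ⟨C1, C10, hn⟩ := hn κ f θ1 d.cut.1 d.tf d.t1
  obtain ⟨C2, δ2, C20, δ20, hab⟩ := ab f θ1 θ d.tf d.t1 d.bump
  obtain ⟨C3, σ, c1, C30, σ0, c11, hf⟩ := far t d
  have r0 : 0 ≤ ∫ t, |ρ t| := integral_nonneg fun t => abs_nonneg _
  refine ⟨k, m, C1 * c1 ^ m * (∫ t, |ρ t|) + C3 / σ + |∫ t, ρ t| * C2 * 2, min 1 (min u0 δ2),
    by positivity, lt_min one_pos (lt_min d.hu δ20),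
    fun a ψ wR wL Λ δ L ha hp pk dk hK tri hw δ0 hδ hL => ?_⟩
  obtain ⟨δ1, δu, δ3⟩ : δ ≤ 1 ∧ δ ≤ u0 ∧ δ ≤ δ2 := by simpa only [le_min_iff] using hδ
  have sρ : tsupport ρ ⊆ Set.Icc (-1) 1 :=
    d.sr.trans (Set.Icc_subset_Icc (by norm_num) (by norm_num))
  have n0 : ‖ψ‖ ≤ Λ := pk.2 0 k.zero_le
  have l0 : 0 ≤ Λ := (norm_nonneg _).trans n0
  have a1 : 1 ≤ a ^ m := one_le_pow₀ ha
  have A1 : 1 ≤ c1 * a := by nlinarith
  have nr : ∀ A, 1 ≤ A → A ≤ c1 * a → ‖inner ℂ (w0L w (pairF sq2 κ f ρ θ1 δ A)) ψ‖ ≤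
      C1 * c1 ^ m * (∫ t, |ρ t|) * a ^ m * Λ := fun A h1 h2 =>
    (hn ρ δ A ψ Λ d.tr sρ δ0 δ1 h1 hp pk).trans <| by
      calc _ ≤ C1 * (c1 * a) ^ m * (∫ t, |ρ t|) * Λ := by gcongr
        _ = _ := by ring
  have p1 : ‖inner ℂ (w0L w (pairF sq2 κ f ρ θ1 δ L)) ψ‖ ≤
      C1 * c1 ^ m * (∫ t, |ρ t|) * a ^ m * Λ + C3 / σ * a ^ m * Λ := by
    rcases le_total L (c1 * a) with h | h
    · exact (nr L hL h).trans (le_add_of_nonneg_right (by positivity))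
    have q := (t.ann.int ((innerSL ℂ ψ).comp (w0L w)) κ f ρ θ1 δ _ L d.cut.1 d.tf d.tr d.t1 δ0
      (one_pos.trans_le A1) h).2
    simp only [ContinuousLinearMap.comp_apply, innerSL_apply_apply] at q
    rw [norm_inner_symm, q]
    refine norm_add_le_of_le ((norm_inner_symm _ _).trans_le (nr _ A1 le_rfl))
      ((int_le (K := C3 * Λ) A1 h σ0 (by positivity) fun s hs => ?_).trans ?_)
    · rw [norm_inner_symm]
      exact (hf a ψ wR wL Λ δ s ha tri hw δ0 δ1 δu hs).trans_eq (by ring)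
    · have : (c1 * a) ^ (-σ) ≤ a ^ m :=
        (Real.rpow_le_one_of_one_le_of_nonpos A1 (by linarith)).trans a1
      calc _ ≤ C3 * Λ * a ^ m / σ := by gcongr
        _ = _ := by ring
  have p2 : ‖((∫ t, ρ t : ℝ) : ℂ) * c.AbK f (abv θ1 θ δ) ψ‖ ≤ |∫ t, ρ t| * C2 * 2 * a ^ m * Λ := by
    rw [norm_mul, Complex.norm_real, Real.norm_eq_abs]
    calc _ ≤ |∫ t, ρ t| * (C2 * (Λ + Λ)) := by
          gcongr
          refine (hab δ ψ δ0 δ3 dk).trans ?_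
          gcongr
      _ = |∫ t, ρ t| * C2 * 2 * 1 * Λ := by ring
      _ ≤ _ := by gcongr
  exact (norm_sub_le_of_le p1 p2).trans_eq (by ring)

end

end Vale.Agent.P352X.CK
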