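import Vale.Agent.P352X.Main0

/-!
# P352X, block CONK: vocabulary and sub-rows (see notes/P352/conk.md)
-/

set_option linter.all false

open MeasureTheory Filter Topology
open scoped SchwartzMap ComplexConjugate ENNReal ContDiff

namespace Vale.Agent.P352X.CK

open Vale.Agent.P352 Vale.Agent.P352.GF Vale.Agent.P352.BW Vale.Agent.P352.H246
open Vale.Agent.P352.H496 Vale.Agent.P352.H755 Vale.Agent.P352.H15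
open UniformSpace (Completion)
open Complex (I)

noncomputable section

/-! ## vocabulary -/

/-- `|x2 - x1|^2 = ∑ j, qol j x2 * pol j x1` -/
def pol : Fin 4 → R2 → ℝ := ![fun _ => 1, fun x => x 0, fun x => x 1, fun x => d2 x x]
def qol : Fin 4 → R2 → ℝ := ![fun x => d2 x x, fun x => -2 * x 0, fun x => -2 * x 1, fun _ => 1]
/-- multiplication by a function of the transverse variables -/
def wt (p : R2 → ℝ) (f : P3 → ℝ) : P3 → ℝ := fun y => p y.2 * f y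
/-- the weight `|x|^2` -/
def sq2 (x : R2) : ℝ := d2 x x
/-- the weight `|x|^2 m(x / s)` -/
def sqm (m : R2 → ℝ) (s : ℝ) (x : R2) : ℝ := d2 x x * m (s⁻¹ • x)
/-- the thin part `θ1(t) θ(t / δ)` -/
def thn (θ1 θ : ℝ → ℝ) (δ t : ℝ) : ℝ := θ1 t * θ (t / δ)
/-- `L^2` norms -/
def n2 {α : Type*} [MeasureSpace α] (f : α → ℂ) : ℝ := Real.sqrt (∫ x, ‖f x‖ ^ 2)
/-- the derivative along `al` -/
def da (g : P3 → ℂ) : P3 → ℂ := fun y => fderiv ℝ g y (1, 0)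
/-- the generator of the scalings `kL`: `d/dA kL κ A = kL (eu κ) A / A` -/
def eu (κ : P3 → ℝ) : P3 → ℝ := fun y => -fderiv ℝ κ y (y.1, (1 / 2 : ℝ) • y.2)
/-- the first point is later than or spacelike to the second -/
def U1 : Set (V × V) := {q | Late {q.1} {q.2}}
/-- the second point is later than or spacelike to the first -/
def U2 : Set (V × V) := {q | Late {q.2} {q.1}}

variable {D : Type*} [NormedAddCommGroup D] [InnerProductSpace ℂ D]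

/-- `w0 w` as a continuous linear map -/
def w0L (w : I2 → I2 → S2 →L[ℂ] Completion D) : S2 →L[ℂ] Completion D := ∑ k, ∑ l, ∑ n,
  ((eta k * va k * (eta l * va l) * eta n : ℝ) : ℂ) • w (k, l) (n, n)

/-- exchange of the two points -/
def swp : S2 →L[ℂ] S2 :=
  SchwartzMap.compCLMOfContinuousLinearEquiv ℂ (ContinuousLinearEquiv.prodComm ℝ V V)

/-- the order `Θ T_aa` of a kernel `W`; the first point carries `T_aa` -/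
def w1L (W : I2 → I2 → S2 →L[ℂ] Completion D) : S2 →L[ℂ] Completion D :=
  w0L fun K M => W M K ∘L swp

variable (c : Ctx D)

/-- the statement of row `WK` for a given kernel -/
def IsW (W : I2 → I2 → S2 →L[ℂ] Completion D) : Prop :=
  (∀ K M (f g : Sch) (F : S2), (∀ x y, F (x, y) = f x * g y) →
    W K M F = ((c.T K.1 K.2 (ev f) (c.T M.1 M.2 (ev g) c.Q.vac) : D) : Completion D)) ∧
  ∀ s L a K M (F G : S2), 0 < s → IsLor L → (∀ x y, G (x, y) = F (sim s L a x, sim s L a y)) →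
    W K M F = ∑ K', ∑ M', (L2 L K' K * L2 L M' M) • Ug c.Q s L a (W K' M' G)

/-- `T_aa` -/
def Taa (h : Fn) (v : D) : D := c.Tf (hk va va h) v

/-- the component orthogonal to the vacuum -/
def perp (v : Completion D) : Completion D := v - inner ℂ c.Om v • c.Om

/-- covariance of the type of `T_aa Θ`, up to multiples of the vacuum -/
structure Cv (R : S2 →L[ℂ] Completion D) : Prop where
  tra : ∀ a (F G : S2), (∀ x y, G (x, y) = F (x + a, y + a)) →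
    ∃ κ : ℂ, R F = Ut c.Q a (R G) + κ • c.Om
  sca : ∀ r s (F G : S2), 0 < r → 0 < s → (∀ x y, G (x, y) = F (scp r s x, scp r s y)) →
    ∃ κ : ℂ, R F = ((s / r : ℝ) : ℂ) • Usc c.Q r s (R G) + κ • c.Om

/-- bounds for `w`, `M^b w`, `P_b w`, `M^b P_b w` -/
structure Lw (w : Completion D) (Λ : ℝ) : Prop where
  dg : Dm (Gb c.Q) w
  dp : Dm (Pb c.Q) w
  dgp : Dm (Gb c.Q) (gen (Pb c.Q) w)
  n0 : ‖w‖ ≤ Λ
  ng : ‖gen (Gb c.Q) w‖ ≤ Λ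
  np : ‖gen (Pb c.Q) w‖ ≤ Λ
  ngp : ‖gen (Gb c.Q) (gen (Pb c.Q) w)‖ ≤ Λ

/-- bounds for the powers of `P_b` -/
def Pk (k : ℕ) (ψ : Completion D) (Λ : ℝ) : Prop :=
  (∀ j < k, Dm (Pb c.Q) ((gen (Pb c.Q))^[j] ψ)) ∧ ∀ j ≤ k, ‖(gen (Pb c.Q))^[j] ψ‖ ≤ Λ

/-- the domains of `K`, `M`, `P` -/
def DK (ψ : Completion D) : Prop := Dm c.SK ψ ∧ (∀ i, Dm (Mi c.Q i) ψ) ∧ Dm (Pa c.Q) ψ

/-- smooth vectors for the group generated by `B`, `P_b`, `M^b` -/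
def Sm (v : Completion D) : Prop := ContDiff ℝ ∞ fun q => c.gq q v

/-- the sum of the norms of the derivatives of order at most `k` -/
def nq (k : ℕ) (v : Completion D) : ℝ :=
  ∑ j ∈ Finset.range (k + 1), ‖iteratedFDeriv ℝ j (fun q => c.gq q v) 0‖

/-- the error term of row `CONK` -/
def Err (w : I2 → I2 → S2 →L[ℂ] Completion D) (κ f : P3 → ℝ) (ρ θ1 θ : ℝ → ℝ) (δ L : ℝ)
    (ψ : Completion D) : ℂ :=
  inner ℂ (w0L w (pairF sq2 κ f ρ θ1 δ L)) ψ - (∫ t, ρ t : ℝ) * c.AbK f (abv θ1 θ δ) ψ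

/-- the data of row `CONK`; the crossing leg is supported in `al < a0`, `-u0 < be` -/
structure Dat (w W : I2 → I2 → S2 →L[ℂ] Completion D) (κ f : P3 → ℝ) (ρ θ1 θ : ℝ → ℝ)
    (a0 u0 : ℝ) : Prop where
  tp : TP2 c.Q c.T false w
  isW : IsW c W
  cut : Cut κ
  tf : Tst f
  tr : Tst ρ
  sr : tsupport ρ ⊆ Set.Icc (-1 / 2) (1 / 2)
  t1 : Tst θ1
  bump : Bump θ
  ha : a0 = -1
  hu : 0 < u0
  sf : tsupport f ⊆ {y | y.1 < a0}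
  s1 : tsupport θ1 ⊆ Set.Ioi (-u0)

/-- a good operator below the plane and to the right of the crossing leg -/
structure RX (a0 u0 : ℝ) (X : Completion D →L[ℂ] Completion D) : Prop where
  loc : ∃ y r, 0 < r ∧ dc y r ⊆ {z | be z < -u0 ∧ a0 + 2 < al z} ∧ X ∈ c.N (dc y r)
  good : c.Good X
  perp : inner ℂ c.Om (X c.Om) = 0

/-- the spectator `ψ` can be moved past the two legs -/
structure Tri (f : P3 → ℝ) (θ1 : ℝ → ℝ) (a u0 : ℝ) (ψ : Completion D)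
    (wR wL : Fin 4 → Completion D) : Prop where
  right : ∀ j h, In Set.univ h →
    inner ℂ ((c.Thf (pr (wt (pol j) f) θ1) (Taa c h c.Q.vac) : D) : Completion D) ψ =
      inner ℂ ((Taa c h c.Q.vac : D) : Completion D) (wR j)
  left : ∀ j h, In {z | al z < -a ∧ -u0 < be z} h →
    inner ℂ ((Taa c h (c.Thf (pr (wt (pol j) f) θ1) c.Q.vac) : D) : Completion D) ψ =
      inner ℂ (wL j) ((Taa c (bar h) c.Q.vac : D) : Completion D)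

/-! ## rows without field theory -/

/-- row VIT: families of functions of positive frequency -/
def VIT : Prop := ∀ (ι : Type) (l : Filter ι) (F : ι → ℝ → ℂ) (C s0 : ℝ) (m : ℕ),
  (∀ᶠ i in l, ∀ s, ‖F i s‖ ≤ C * (1 + |s|) ^ m) →
  (∀ᶠ i in l, ∀ s t, ‖F i s - F i t‖ ≤ C * (1 + |s| + |t|) ^ m * |s - t|) →
  (∀ᶠ i in l, ∀ g : 𝓢(ℝ, ℂ), (∀ p, 0 ≤ p → ft1 g p = 0) → ∫ s, g s * F i s = 0) →
  (∀ s, s0 ≤ s → Tendsto (fun i => F i s) l (𝓝 0)) → ∀ s, Tendsto (fun i => F i s) l (𝓝 0)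

/-- row PRIM: primitives -/
def PRIM : Prop := ∃ (χ : ℝ → ℝ) (C : ℝ), Tst χ ∧ tsupport χ ⊆ Set.Icc 0 1 ∧ 0 ≤ C ∧
  ∀ ρ, Tst ρ → tsupport ρ ⊆ Set.Icc (-1) 1 → ∃ R, Tst R ∧ tsupport R ⊆ Set.Icc (-1) 1 ∧
    (∀ t, ρ t = deriv R t + (∫ t, ρ t) * χ t) ∧ ∀ t, |R t| ≤ C * ∫ t, |ρ t|

/-- row ANN: annuli -/
structure ANN : Prop where
  tst : ∀ κ, Tst κ → Tst (eu κ)
  app : ∀ (W : R2 → ℝ) (κ f : P3 → ℝ) (ρ θ1 : ℝ → ℝ) (δ L : ℝ), ContDiff ℝ ∞ W → Tst κ → Tst f →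
    Tst ρ → Tst θ1 → 0 < δ → 0 < L → ∀ z : V × V, pairF W κ f ρ θ1 δ L z =
      ((W (tx z.1 - tx z.2) * (kL κ L (pl z.1) * dlt δ ρ (be z.1)) *
        (f (pl z.2) * θ1 (be z.2)) : ℝ) : ℂ)
  int : ∀ (Λ : S2 →L[ℂ] ℂ) (κ f : P3 → ℝ) (ρ θ1 : ℝ → ℝ) (δ A L : ℝ), Tst κ → Tst f → Tst ρ → Tst θ1 →
    0 < δ → 0 < A → A ≤ L →
    IntervalIntegrable (fun t : ℝ => ((t⁻¹ : ℝ) : ℂ) * Λ (pairF sq2 (eu κ) f ρ θ1 δ t)) volume A L ∧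
    Λ (pairF sq2 κ f ρ θ1 δ L) = Λ (pairF sq2 κ f ρ θ1 δ A) +
      ∫ t in A..L, ((t⁻¹ : ℝ) : ℂ) * Λ (pairF sq2 (eu κ) f ρ θ1 δ t)
  split : ∀ (κ f : P3 → ℝ) (B : ℝ), Cut κ → Tst f → ∃ (gL gR : P3 → ℝ) (c0 A0 : ℝ), Tst gL ∧
    Tst gR ∧ 0 < c0 ∧ 1 ≤ A0 ∧ (∀ y, eu κ y = gL y + gR y) ∧ tsupport gL ⊆ {y | y.1 ≤ -c0} ∧
    ∀ (W : R2 → ℝ) (ρ φ : ℝ → ℝ) (δ A : ℝ), ContDiff ℝ ∞ W → Tst ρ →
      tsupport ρ ⊆ Set.Icc (-1) 1 → Tst φ → tsupport φ ⊆ Set.Icc (-B) B → 0 < δ → δ ≤ 1 → A0 ≤ A →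
      tsupport (pairF W gR f ρ φ δ A) ⊆ U1 ∧ tsupport (pairF W gL f ρ φ δ A) ⊆ U2
  split2 : ∀ (K : Set P3) (f : P3 → ℝ) (B : ℝ), IsCompact K → (0 : P3) ∉ K → Tst f →
    ∃ (σ : P3 → ℝ) (c0 A0 : ℝ), ContDiff ℝ ∞ σ ∧ 0 < c0 ∧ 1 ≤ A0 ∧ tsupport σ ⊆ {y | y.1 ≤ -c0} ∧
    ∀ (g : P3 → ℝ) (W : R2 → ℝ) (ρ φ : ℝ → ℝ) (δ A : ℝ), Tst g → tsupport g ⊆ K →
      ContDiff ℝ ∞ W → Tst ρ → tsupport ρ ⊆ Set.Icc (-1) 1 → Tst φ →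
      tsupport φ ⊆ Set.Icc (-B) B → 0 < δ → δ ≤ 1 → A0 ≤ A →
      tsupport (pairF W (fun y => (1 - σ y) * g y) f ρ φ δ A) ⊆ U1 ∧
      tsupport (pairF W (fun y => σ y * g y) f ρ φ δ A) ⊆ U2
  tube : ∀ (g f : P3 → ℝ) (θ : ℝ → ℝ), Tst g → Tst f → Tst θ → ∃ m : R2 → ℝ, Tst m ∧
    ∀ (ρ θ1 : ℝ → ℝ) (δ A : ℝ), Tst ρ → tsupport ρ ⊆ Set.Icc (-1) 1 → Tst θ1 → 0 < δ → 1 ≤ A →
      tsupport (pairF sq2 g f ρ (thn θ1 θ δ) δ A -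
        pairF (sqm m (Real.sqrt (δ * A))) g f ρ (thn θ1 θ δ) δ A : S2) ⊆ U1

/-! ## tools -/

/-- row NORM: norms of vectors created by one field -/
def NORM : Prop := ∃ C : ℝ, 0 ≤ C ∧ ∀ (g : P3 → ℂ) (φ : ℝ → ℂ), Dc g → Dc φ →
  ‖c.Tv (hk va va (pf g φ))‖ ≤ C * n2 (da (da g)) * n2 φ ∧
  (∀ s, 0 < s → c.nu (c.Tv (hk va va (pf g φ))) {p | al p < s} ≤
    ENNReal.ofReal ((C * n2 (da (da g)) * ∫ t, ‖φ t‖) ^ 2 * s)) ∧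
  ‖c.Th (pf g φ)‖ ≤ C * n2 (da g) * n2 (deriv φ)

/-- row TAIL: far annuli of the plane, uniformly in the profile -/
def TAIL : Prop := ∃ κ : ℝ, 0 < κ ∧ ∀ g, Tst g → ∃ C : ℝ, 0 ≤ C ∧ ∀ ρ (A : ℝ) w (Λ : ℝ), Tst ρ →
  tsupport ρ ⊆ Set.Icc (-1) 1 → 1 ≤ A → Lw c w Λ →
  ‖inner ℂ (c.Tv (hk va va (pr (kL g A) ρ))) w‖ ≤ C * A ^ (-1 - κ) * (∫ t, |ρ t|) * Λ

/-- row CV: covariance and orderings -/
structure CV : Prop where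
  w0 : ∀ (w : I2 → I2 → S2 →L[ℂ] Completion D) F, w0 w F = w0L w F
  cvw : ∀ e w, TP2 c.Q c.T e w → Cv c (w0L w)
  cvW : ∀ W, IsW c W → Cv c (w0L W) ∧ Cv c (w1L W)
  late : ∀ w W (F : S2), TP2 c.Q c.T false w → IsW c W → tsupport F ⊆ U1 → w0L w F = w1L W F
  early : ∀ w W (F : S2), TP2 c.Q c.T false w → IsW c W → tsupport F ⊆ U2 → w0L w F = w0L W F
  prod : ∀ W (h g : Fn) (F : S2), IsW c W → IsTest h → IsTest g → (∀ x y, F (x, y) = h x * g y) →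
    w0L W F = ((Taa c h (c.Thf g c.Q.vac) : D) : Completion D) ∧
    w1L W F = ((c.Thf g (Taa c h c.Q.vac) : D) : Completion D)
  pair : ∀ W (κ f : P3 → ℝ) (ρ θ1 : ℝ → ℝ) (δ L : ℝ), IsW c W → Tst κ → Tst f → Tst ρ → Tst θ1 →
    0 < δ → 0 < L →
    w0L W (pairF sq2 κ f ρ θ1 δ L) = ∑ j, ((Taa c (pr (wt (qol j) (kL κ L)) (dlt δ ρ))
      (c.Thf (pr (wt (pol j) f) θ1) c.Q.vac) : D) : Completion D) ∧
    w1L W (pairF sq2 κ f ρ θ1 δ L) = ∑ j, ((c.Thf (pr (wt (pol j) f) θ1)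
      (Taa c (pr (wt (qol j) (kL κ L)) (dlt δ ρ)) c.Q.vac) : D) : Completion D)

/-- row FLOW: thin tubes -/
def FLOW : Prop := ∀ (R : S2 →L[ℂ] Completion D) (m : R2 → ℝ) (κ f : P3 → ℝ) (ρ θ1 θ : ℝ → ℝ)
  (A : ℝ), Cv c R → Tst m → Tst κ → Tst f → Tst ρ → Tst θ1 → Tst θ → 0 < A →
  Tendsto (fun δ : ℝ => perp c (R (pairF (sqm m (Real.sqrt (δ * A))) κ f ρ (thn θ1 θ δ) δ A)))
    (𝓝[>] 0) (𝓝 0)

/-- row NEAR: the near part, uniformly in the width of the profile -/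
def NEAR : Prop := ∀ R : S2 →L[ℂ] Completion D, Cv c R → ∃ k m : ℕ, ∀ (κ f : P3 → ℝ) (θ1 : ℝ → ℝ),
  Tst κ → Tst f → Tst θ1 → ∃ C : ℝ, 0 ≤ C ∧ ∀ ρ (δ A : ℝ) ψ (Λ : ℝ), Tst ρ →
  tsupport ρ ⊆ Set.Icc (-1) 1 → 0 < δ → δ ≤ 1 → 1 ≤ A → inner ℂ c.Om ψ = 0 → Pk c k ψ Λ →
  ‖inner ℂ (R (pairF sq2 κ f ρ θ1 δ A)) ψ‖ ≤ C * A ^ m * (∫ t, |ρ t|) * Λ

/-- row DT: `Θ(g φ)` and `Tht(g^, φ)` -/
def DT : Prop := ∀ ell c0, Ell c ell c0 → ∀ g : P3 → ℂ, Dc g → MemLp (ft3 g) 2 m3 ∧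
  ∃ C : ℝ, 0 ≤ C ∧ ∀ φ, Tst φ → ‖c.Th (pf g (cx φ)) - Tht ell (ft3 g) φ‖ ≤
    C * (n2 (cx fun t => t * deriv φ t) + n2 (cx φ))

/-- row K0T: the geometric part `K0 - 2 x.M + |x|^2 P` on `Θ(g φ)` is bounded -/
def K0T : Prop := ∀ f : P3 → ℝ, Tst f → ∃ C : ℝ, 0 ≤ C ∧ ∀ φ, Tst φ → ∃ χ,
  Gn c.S0 (c.Th (pr f φ)) (χ + (2 : ℂ) • ∑ i, gen (Mi c.Q i) (c.Th (pr (fun y => y.2 i * f y) φ)) -
    gen (Pa c.Q) (c.Th (pr (fun y => d2 y.2 y.2 * f y) φ))) ∧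
  ‖χ‖ ≤ C * (n2 (cx (deriv fun t => t * φ t)) + n2 (cx (deriv fun t => t ^ 2 * φ t)))

/-- row AB: the form above the plane is bounded -/
def AB : Prop := ∀ (f : P3 → ℝ) (θ1 θ : ℝ → ℝ), Tst f → Tst θ1 → Bump θ →
  ∃ C δ0 : ℝ, 0 ≤ C ∧ 0 < δ0 ∧ ∀ δ ψ, 0 < δ → δ ≤ δ0 → DK c ψ →
    ‖c.AbK f (abv θ1 θ δ) ψ‖ ≤ C * (‖ψ‖ + ‖gen c.SK ψ‖)

/-- row SMV: smooth vectors and good operators -/
structure SMV : Prop where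
  sub : ∀ v w, Sm c v → Sm c w → Sm c (v - w)
  dom : ∀ v, Sm c v → Dm (Bo c.Q) v ∧ Dm (Pb c.Q) v ∧ Dm (Gb c.Q) v ∧ Sm c (gen (Bo c.Q) v) ∧
    Sm c (gen (Pb c.Q) v) ∧ Sm c (gen (Gb c.Q) v)
  lw : ∀ v, Sm c v → Lw c v (nq c 2 v) ∧ ‖gen (Bo c.Q) v‖ ≤ nq c 1 v ∧ ∀ k, Pk c k v (nq c k v)
  adj : ∀ X, c.Good X → c.Good (star X)
  scal : ∀ X (a : ℂ), c.Good X → c.Good (X - a • 1)
  app : ∀ X v, c.Good X → Sm c v → Sm c (X v)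
  vac : Sm c c.Om
  lwx : ∀ X, c.Good X → ∃ C : ℝ, 0 ≤ C ∧ ∀ v Λ, Lw c v Λ → Lw c (X v) (C * Λ)
  fld : ∀ y r (f : Sch) (m : ℕ) (η : ℝ), In (dc y r) (ev f) → 0 < η → ∃ (f' : Sch)
    (X : ℕ → Completion D →L[ℂ] Completion D), In (dc y r) (ev f') ∧ sn m (f' - f) < η ∧
    (∀ n, X n ∈ c.N (dc y r) ∧ c.Good (X n) ∧ inner ℂ c.Om (X n c.Om) = 0) ∧ ∀ (v : D) (k : ℕ),
      Tendsto (fun n => nq c k (X n v - (c.Thf (ev f') v : D))) atTop (𝓝 0) ∧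
      Tendsto (fun n => nq c k (star (X n) v - (c.Thf (bar (ev f')) v : D))) atTop (𝓝 0)

/-- row LWF: the same bounds for vectors created by fields -/
structure LWF : Prop where
  one : ∃ (m : ℕ) (C : ℝ), 0 ≤ C ∧ ∀ g : Sch, Lw c (c.Th (ev g)) (C * sn m g)
  pk : ∀ k, ∃ (m : ℕ) (C : ℝ), 0 ≤ C ∧ ∀ g : Sch, Pk c k (c.Th (ev g)) (C * sn m g)
  two : ∃ (m : ℕ) (C : ℝ), 0 ≤ C ∧ ∀ f g : Sch,
    Lw c ((c.Thf (ev f) (c.Thf (ev g) c.Q.vac) : D) : Completion D) (C * sn m f * sn m g)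
  thin : ∀ (f : P3 → ℝ) (θ1 θ : ℝ → ℝ) (m : ℕ), Tst f → Tst θ1 → Tst θ → ∃ C : ℝ, 0 ≤ C ∧
    ∀ δ, 0 < δ → δ ≤ 1 → ∃ g : Sch, ev g = pr f (thn θ1 θ δ) ∧ sn m g ≤ C * δ⁻¹ ^ m

/-- row KP: pairs in a double cone below the plane and the operators `K_y` -/
structure KP : Prop where
  dom : ∀ y r (u0 d0 : ℝ), 0 < r → 0 < u0 → 0 < d0 → dc y r ⊆ {z | be z < -u0 ∧ d0 < al z} →
    ∃ C : ℝ, 0 ≤ C ∧ ∀ ψ ψ', Pr (c.N (dc y r)) c.Om ψ ψ' → Dm (Bo c.Q) ψ →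
      DK c ψ ∧ ‖gen c.SK ψ‖ ≤ C * (‖ψ‖ + ‖ψ'‖ + ‖gen (Bo c.Q) ψ‖)
  shift : ∀ y r (u0 d0 : ℝ) X (x : R2), 0 < r → 0 < u0 → 0 < d0 →
    dc y r ⊆ {z | be z < -u0 ∧ d0 < al z} → X ∈ c.N (dc y r) → c.Good X →
    ContinuousOn (fun u : ℝ => gen (c.Ky (tv x + u • vb)) (X c.Om)) (Set.Ioo (-u0) u0) ∧
    ∀ η > 0, ∀ᶠ u in 𝓝 (0 : ℝ),
      ‖gen (c.Ky (tv x + u • vb)) (X c.Om) - gen (c.Ky (tv x)) (X c.Om)‖ ≤ η * Real.sqrt |u|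

/-- row TRI: hermiticity and locality -/
structure TRI : Prop where
  herm : ∀ h (u v : D), IsTest h → inner ℂ (Taa c h u) v = inner ℂ u (Taa c (bar h) v) ∧
    inner ℂ (c.Thf h u) v = inner ℂ u (c.Thf (bar h) v)
  com : ∀ (a u0 : ℝ) g h (v : D), In {z | al z < a ∧ -u0 < be z} h →
    In {z | be z ≤ -u0 ∧ a ≤ al z} g → c.Thf g (c.Thf h v) = c.Thf h (c.Thf g v) ∧
      c.Thf g (Taa c h v) = Taa c h (c.Thf g v)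
  op : ∀ (a u0 : ℝ) y r X h (u v : D), dc y r ⊆ {z | be z < -u0 ∧ a < al z} → X ∈ c.N (dc y r) →
    In {z | al z < a ∧ -u0 < be z} h →
    inner ℂ ((c.Thf (bar h) u : D) : Completion D) (X (v : Completion D)) =
      inner ℂ (u : Completion D) (X ((c.Thf h v : D) : Completion D)) ∧
    inner ℂ ((Taa c (bar h) u : D) : Completion D) (X (v : Completion D)) =
      inner ℂ (u : Completion D) (X ((Taa c h v : D) : Completion D))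
  fld : ∀ (f : P3 → ℝ) (θ1 : ℝ → ℝ) (a u0 : ℝ) g, Tst f → Tst θ1 →
    In {z | be z ≤ -u0 ∧ -a ≤ al z} g → Tri c f θ1 a u0 (c.Th g)
      (fun j => (c.Thf (pr (wt (pol j) f) θ1) (c.Thf g c.Q.vac) : D))
      (fun j => (c.Thf (bar g) (c.Thf (pr (wt (pol j) f) θ1) c.Q.vac) : D))
  opt : ∀ (f : P3 → ℝ) (θ1 : ℝ → ℝ) (a a0 u0 : ℝ) y r X, Tst f → Tst θ1 →
    tsupport f ⊆ {y | y.1 < a0} → tsupport θ1 ⊆ Set.Ioi (-u0) → -a ≤ a0 →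
    dc y r ⊆ {z | be z < -u0 ∧ a0 < al z} → X ∈ c.N (dc y r) → Tri c f θ1 a u0 (X c.Om)
      (fun j => X (c.Th (pr (wt (pol j) f) θ1))) (fun j => star X (c.Th (pr (wt (pol j) f) θ1)))

/-- row `BP` for `a0 = 0` -/
def BP0 : Prop := ∀ (u0 d0 : ℝ) y1 r1 X f1 κ ρ (y : R2), 0 < d0 → 0 < r1 →
  dc y1 r1 ⊆ {z | be z < -u0 ∧ d0 < al z} → X ∈ c.N (dc y1 r1) → c.Good X →
  In {z | u0 < be z ∧ al z < -d0} f1 → Cut κ → Tst ρ → tsupport ρ ⊆ Set.Ioo (-u0) u0 →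
  Tendsto (fun L => inner ℂ ((c.Tf (hk va va (pr (fun q => d2 (q.2 - y) (q.2 - y) * kL κ L q) ρ))
      (c.Thf (bar f1) c.Q.vac) : D) : Completion D) (X c.Om)) atTop
    (𝓝 (∫ u, (ρ u : ℂ) * inner ℂ (c.Th (bar f1)) (gen (c.Ky (tv y + u • vb)) (X c.Om))))

/-- row `CONK` for a crossing leg to the left of the centre of the cut off -/
def CONK0 : Prop := ∀ w (κ f : P3 → ℝ) (ρ θ1 θ : ℝ → ℝ) (f3 : Fn),
  TP2 c.Q c.T false w → Cut κ → Tst f → tsupport f ⊆ {y | y.1 < -1} → Tst ρ →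
  tsupport ρ ⊆ Set.Icc (-1 / 2) (1 / 2) → Tst θ1 →
  Bump θ → In {z | be z < 0} f3 → ∀ η > 0, ∀ᶠ δ in 𝓝[>] (0 : ℝ), ∀ᶠ L in atTop,
    ‖inner ℂ (w0 w (pairF (fun x => d2 x x) κ f ρ θ1 δ L)) (c.Th f3) -
      (∫ t, ρ t : ℝ) * c.AbK f (abv θ1 θ δ) (c.Th f3)‖ ≤ η

/-- the tools of the block -/
structure Tools : Prop extends T3 c where
  prim : PRIM
  ann : ANN
  norm : NORM c
  tail : TAIL c
  cv : CV c
  smv : SMV c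
  lwf : LWF c
  kp : KP c
  tri : TRI c

/-! ## the proof -/

/-- row A1: the part above the plane, and the order `Θ T` -/
structure A1 : Prop where
  above : ∀ w W κ f ρ θ1 θ a0 u0 X, Dat c w W κ f ρ θ1 θ a0 u0 → RX c a0 u0 X → ∀ η > 0,
    ∀ᶠ δ in 𝓝[>] (0 : ℝ), ∀ᶠ L in atTop,
      ‖inner ℂ (w0L w (pairF sq2 κ f ρ (abv θ1 θ δ) δ L)) (X c.Om) -
        (∫ t, ρ t : ℝ) * c.AbK f (abv θ1 θ δ) (X c.Om)‖ ≤ η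
  order : ∀ w W κ f ρ θ1 θ a0 u0 X (φ : ℝ → ℝ) (δ : ℝ), Dat c w W κ f ρ θ1 θ a0 u0 →
    RX c a0 u0 X → Tst φ → tsupport φ ⊆ Set.Ioi (-u0) → 0 < δ →
    Tendsto (fun L => inner ℂ (w1L W (pairF sq2 κ f ρ φ δ L)) (X c.Om)) atTop (𝓝 0)

/-- row A3: the far tubes -/
def A3 : Prop := ∀ w W κ f ρ θ1 θ a0 u0 X (g : P3 → ℝ) (c0 : ℝ), Dat c w W κ f ρ θ1 θ a0 u0 →
  RX c a0 u0 X → Tst g → 0 < c0 → tsupport g ⊆ {y | y.1 ≤ -c0} →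
  ∃ C σ A0 δ0 : ℝ, 0 < σ ∧ 0 < δ0 ∧ ∀ δ A, 0 < δ → δ ≤ δ0 → A0 ≤ A →
    ‖inner ℂ ((w0L w - w1L W) (pairF sq2 g f ρ (thn θ1 θ δ) δ A)) (X c.Om)‖ ≤ C * A ^ (-σ)

/-- row AA: the statement for good operators -/
def AA : Prop := ∀ w W κ f ρ θ1 θ a0 u0 X, Dat c w W κ f ρ θ1 θ a0 u0 → RX c a0 u0 X → ∀ η > 0,
  ∀ᶠ δ in 𝓝[>] (0 : ℝ), ∀ᶠ L in atTop, ‖Err c w κ f ρ θ1 θ δ L (X c.Om)‖ ≤ η

/-- row UB: uniform bounds -/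
def UB : Prop := ∀ w W κ f ρ θ1 θ a0 u0, Dat c w W κ f ρ θ1 θ a0 u0 →
  ∃ (k m : ℕ) (C δ0 : ℝ), 0 ≤ C ∧ 0 < δ0 ∧ ∀ (a : ℝ) ψ wR wL (Λ δ L : ℝ), 1 ≤ a →
    inner ℂ c.Om ψ = 0 → Pk c k ψ Λ → DK c ψ → ‖gen c.SK ψ‖ ≤ Λ → Tri c f θ1 a u0 ψ wR wL →
    (∀ j, Lw c (wR j) Λ ∧ Lw c (wL j) Λ) → 0 < δ → δ ≤ δ0 → 1 ≤ L →
    ‖Err c w κ f ρ θ1 θ δ L ψ‖ ≤ C * a ^ m * Λ

/-- row UF: uniform bounds for fields below the plane -/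
def UF : Prop := ∀ w W κ f ρ θ1 θ a0 u0 (b1 : ℝ), Dat c w W κ f ρ θ1 θ a0 u0 →
  ∃ (m : ℕ) (C δ0 : ℝ), 0 ≤ C ∧ 0 < δ0 ∧ ∀ (a : ℝ) (g : Sch) (δ L : ℝ), 1 ≤ a →
    In {z | b1 ≤ be z ∧ be z ≤ -u0 ∧ -a ≤ al z} (ev g) → 0 < δ → δ ≤ δ0 → 1 ≤ L →
    DK c (c.Th (ev g)) ∧ ‖Err c w κ f ρ θ1 θ δ L (c.Th (ev g))‖ ≤ C * a ^ m * sn m g

/-- row RF: the statement for fields to the right -/
def RF : Prop := ∀ w W κ f ρ θ1 θ a0 u0 (g : Fn), Dat c w W κ f ρ θ1 θ a0 u0 →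
  In {z | be z < -u0 ∧ a0 + 2 < al z} g → ∀ η > 0,
  ∀ᶠ δ in 𝓝[>] (0 : ℝ), ∀ᶠ L in atTop, ‖Err c w κ f ρ θ1 θ δ L (c.Th g)‖ ≤ η

/-- the sub-rows with their dependencies -/
structure Rows : Prop where
  vit : VIT
  prim : PRIM
  ann : ANN
  norm : T3 c → NORM c
  tail : T3 c → PRIM → NORM c → TAIL c
  cv : T3 c → ANN → CV c
  smv : T3 c → SMV c
  lwf : T3 c → LWF c
  kp : T3 c → SMV c → KP c
  tri : T3 c → TRI c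
  flow : T3 c → ANN → FLOW c
  near : T3 c → PRIM → ANN → NEAR c
  dt : T3 c → DT c
  k0t : T3 c → K0T c
  sch : T3 c → SCH c
  ab : T3 c → NORM c → SCH c → DT c → K0T c → AB c
  a1 : Tools c → BP0 c → A1 c
  a3 : Tools c → A3 c
  aa : Tools c → FLOW c → A1 c → A3 c → AA c
  ub : Tools c → NEAR c → AB c → UB c
  uf : Tools c → UB c → UF c
  rf : Tools c → AA c → UB c → UF c → RF c
  fin : Tools c → VIT → UF c → RF c → CONK0 c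
  sh : Tools c → CONK0 c → CONK c

theorem Rows.conk {c : Ctx D} (r : CK.Rows c) (t : T3 c) (bp : BP0 c) : CONK c := by
  have norm := r.norm t
  have smv := r.smv t
  have tl : Tools c := ⟨t, r.prim, r.ann, norm, r.tail t r.prim norm, r.cv t r.ann, smv, r.lwf t,
    r.kp t smv, r.tri t⟩
  have ub := r.ub tl (r.near t r.prim r.ann) (r.ab t norm (r.sch t) (r.dt t) (r.k0t t))
  have uf := r.uf tl ub
  exact r.sh tl (r.fin tl r.vit uf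
    (r.rf tl (r.aa tl (r.flow t r.ann) (r.a1 tl bp) (r.a3 tl)) ub uf))

end

end Vale.Agent.P352X.CK
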