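import Vale.Agent.P352X.R.CONK.Spec
import Vale.Agent.P352.Bdl.B1

/-!
# P352X: row CK.vit
-/

set_option linter.all false

open MeasureTheory Filter Topology
open scoped SchwartzMap FourierTransform ContDiff Real

namespace Vale.Agent.P352X.CK

open Vale.Agent.P352
open Complex (I)

namespace Vit

theorem int_w (g : 𝓢(ℝ, ℂ)) (m : ℕ) : Integrable fun s : ℝ => ‖g s‖ * (1 + |s|) ^ m := by
  have := integrable_finset_sum (μ := volume) (Finset.range (m + 1)) fun j _ =>
    (g.integrable_pow_mul volume j).mul_const (m.choose j)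
  refine this.congr (.of_forall fun s => ?_)
  simp only [add_comm (1 : ℝ), add_pow, Finset.mul_sum, one_pow, mul_one, Real.norm_eq_abs]
  exact Finset.sum_congr rfl fun _ _ => by ring

theorem int_mul (g : 𝓢(ℝ, ℂ)) {F : ℝ → ℂ} {C : ℝ} {m : ℕ} (hc : Continuous F)
    (hb : ∀ s, ‖F s‖ ≤ C * (1 + |s|) ^ m) : Integrable fun s => g s * F s :=
  ((int_w g m).mul_const C).mono' (g.continuous.mul hc).aestronglyMeasurable (.of_forall fun s => by
    rw [norm_mul, mul_assoc, mul_comm _ C]
    exact mul_le_mul_of_nonneg_left (hb s) (norm_nonneg _))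

theorem ft1_fourier (u : 𝓢(ℝ, ℂ)) (p : ℝ) : ft1 (𝓕 u : 𝓢(ℝ, ℂ)) p = u (p / (2 * π)) := by
  rw [← congrFun (u.continuous.fourierInv_fourier_eq u.integrable (𝓕 u : 𝓢(ℝ, ℂ)).integrable) _,
    Real.fourierInv_eq', ft1]
  refine integral_congr_ae (.of_forall fun t => ?_)
  simp only [smul_eq_mul, mul_comm (Complex.exp _), SchwartzMap.fourier_coe]
  congr 2
  rw [mul_comm I, Real.inner_apply]
  congr 2
  field_simp

/-- an integrable function supported on a half line whose Fourier transform vanishes on an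
interval is zero -/
theorem half {h : ℝ → ℂ} (hc : Continuous h) (hi : Integrable h) {s0 : ℝ}
    (h0 : ∀ s, s0 ≤ s → h s = 0) (hz : ∀ x : ℝ, x < 0 → 𝓕 h x = 0) (s : ℝ) : h s = 0 := by
  let E : ℂ → ℝ → ℂ := fun z s => Complex.exp (-2 * π * (s - s0) * z * I) * h s
  have e : ∀ x : ℝ, ∫ s, E x s = Complex.exp (2 * π * s0 * x * I) * 𝓕 h x := fun x => by
    rw [Real.fourier_real_eq_integral_exp_smul, ← integral_const_mul]
    refine integral_congr_ae (.of_forall fun s => ?_)
    simp only [E, smul_eq_mul, ← mul_assoc, ← Complex.exp_add]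
    congr 2
    push_cast
    ring
  have hm : ∀ z, AEStronglyMeasurable (E z) volume := fun z =>
    (by simp only [E]; fun_prop : Continuous (E z)).aestronglyMeasurable
  have hb : ∀ s z, 0 ≤ z.im → ‖E z s‖ ≤ ‖h s‖ := fun s z hz => by
    rcases le_total s0 s with k | k
    · simp [E, h0 s k]
    rw [norm_mul, Complex.norm_exp]
    refine mul_le_of_le_one_left (norm_nonneg _) (Real.exp_le_one_iff.2 ?_)
    simp only [Complex.mul_re, Complex.mul_im, Complex.I_re, Complex.I_im, Complex.ofReal_re,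
      Complex.ofReal_im, Complex.sub_re, Complex.sub_im, Complex.neg_re, Complex.neg_im,
      Complex.re_ofNat, Complex.im_ofNat]
    nlinarith [mul_nonneg (mul_nonneg Real.pi_pos.le (sub_nonneg.2 k)) hz]
  have key := halfplane_unique (fun z => ∫ s, E z s) (fun z₀ _ => continuousWithinAt_of_dominated
    (bound := fun s => ‖h s‖) (.of_forall hm) (eventually_mem_nhdsWithin.mono fun z k =>
      .of_forall fun s => hb s z k) hi.norm (.of_forall fun s => Continuous.continuousWithinAt
        (by simp only [E]; fun_prop)))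
    (fun z₀ k => (differentiableAt_integral (isOpen_lt continuous_const Complex.continuous_im)
      (fun z _ => hm z) (.of_forall fun s => Differentiable.differentiableOn
        (by simp only [E]; fun_prop)) (.of_forall fun s z k => hb s z (le_of_lt k)) hi.norm
          k).differentiableWithinAt)
    ⟨_, fun z k => norm_integral_le_of_norm_le hi.norm (.of_forall fun s => hb s z k)⟩
    (-1) 0 (by norm_num) fun t _ k => by rw [e, hz t k, mul_zero]
  have k0 : 𝓕 h = 0 := funext fun x =>
    (mul_eq_zero.1 ((e x).symm.trans (key x (by simp)))).resolve_left (Complex.exp_ne_zero _)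
  rw [← hc.fourierInv_fourier_eq hi (k0 ▸ integrable_zero _ _ _), k0, Real.fourierInv_eq']
  simp

theorem one {F : ℝ → ℂ} {C s0 : ℝ} {m : ℕ} (hc : Continuous F)
    (hb : ∀ s, ‖F s‖ ≤ C * (1 + |s|) ^ m)
    (hg : ∀ g : 𝓢(ℝ, ℂ), (∀ p, 0 ≤ p → ft1 g p = 0) → ∫ s, g s * F s = 0)
    (h0 : ∀ s, s0 ≤ s → F s = 0) (s1 : ℝ) : F s1 = 0 := by
  let β : ContDiffBump (-2 : ℝ) := ⟨1 / 2, 1, by norm_num, by norm_num⟩
  let b : ℝ → ℝ → ℂ := fun x w => β (w - x) * Complex.exp (2 * π * (w - x) * s1 * I)
  have b1 : ∀ x, HasCompactSupport (b x) := fun x => HasCompactSupport.mul_right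
    ((β.hasCompactSupport.comp_homeomorph (Homeomorph.subRight x)).comp_left Complex.ofReal_zero)
  have b2 : ∀ x, ContDiff ℝ ∞ (b x) := fun x =>
    (Complex.ofRealCLM.contDiff.comp (β.contDiff.comp (contDiff_id.sub contDiff_const))).mul
      (Complex.contDiff_exp.comp (((contDiff_const.mul (Complex.ofRealCLM.contDiff.sub
        contDiff_const)).mul contDiff_const).mul contDiff_const))
  let u : ℝ → 𝓢(ℝ, ℂ) := fun x => (b1 x).toSchwartzMap (b2 x)
  have e : ∀ x s, (𝓕 (u x) : 𝓢(ℝ, ℂ)) s = Complex.exp ((-2 * π * s * x : ℝ) * I) *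
      ∫ w : ℝ, β w * Complex.exp (2 * π * w * (s1 - s) * I) := fun x s => by
    rw [SchwartzMap.fourier_coe, Real.fourier_real_eq_integral_exp_smul, ← integral_const_mul,
      ← integral_add_right_eq_self _ x]
    refine integral_congr_ae (.of_forall fun w => ?_)
    change _ * b x (w + x) = _
    simp only [b, add_sub_cancel_right, mul_left_comm _ (β w : ℂ), ← Complex.exp_add]
    congr 2
    push_cast
    ring
  have := half (h := fun s => (𝓕 (u 0) : 𝓢(ℝ, ℂ)) s * F s) ((𝓕 (u 0) : 𝓢(ℝ, ℂ)).continuous.mul hc)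
    (int_mul _ hc hb) (fun s k => by rw [h0 s k, mul_zero]) (fun x k => by
      rw [Real.fourier_real_eq_integral_exp_smul, ← hg (𝓕 (u x)) fun p hp => ?_]
      · refine integral_congr_ae (.of_forall fun s => ?_)
        simp only [e, smul_eq_mul, mul_zero, Complex.ofReal_zero, zero_mul, Complex.exp_zero,
          one_mul, mul_assoc]
      · rw [ft1_fourier]
        change b x _ = 0
        have : 0 ≤ p / (2 * π) := by positivity
        simp only [b]
        rw [β.zero_of_le_dist, Complex.ofReal_zero, zero_mul]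
        exact le_abs.2 (.inl (by simp only [β]; linarith))) s1
  refine (mul_eq_zero.1 this).resolve_left ?_
  rw [e]
  simp only [sub_self, mul_zero, zero_mul, Complex.exp_zero, mul_one, integral_complex_ofReal]
  exact mul_ne_zero (Complex.exp_ne_zero _) (Complex.ofReal_ne_zero.2 β.integral_pos.ne')

theorem cont {F : ℝ → ℂ} {C : ℝ} {m : ℕ}
    (h : ∀ s t, ‖F s - F t‖ ≤ C * (1 + |s| + |t|) ^ m * |s - t|) : Continuous F :=
  continuous_iff_continuousAt.2 fun t => tendsto_iff_norm_sub_tendsto_zero.2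
    (squeeze_zero (fun _ => norm_nonneg _) (fun s => h s t) (by
      have : Continuous fun s : ℝ => C * (1 + |s| + |t|) ^ m * |s - t| := by fun_prop
      simpa using this.tendsto t))

theorem unif {ι : Type} {l : Filter ι} {F : ι → ℝ → ℂ} {C : ℝ} {m : ℕ}
    (h : ∀ᶠ i in l, ∀ s t, ‖F i s - F i t‖ ≤ C * (1 + |s| + |t|) ^ m * |s - t|) {G : ℝ → ℂ}
    (hG : Continuous G) (p : ∀ s, Tendsto (fun i => F i s) l (𝓝 (G s))) {K : Set ℝ}
    (hK : IsCompact K) {η : ℝ} (hη : 0 < η) : ∀ᶠ i in l, ∀ s ∈ K, ‖G s - F i s‖ ≤ η := by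
  refine hK.induction_on (p := fun K => ∀ᶠ i in l, ∀ s ∈ K, ‖G s - F i s‖ ≤ η) (by simp)
    (fun s t e k => k.mono fun i hi x hx => hi x (e hx))
    (fun s t k k' => (k.and k').mono fun i hi x hx => hx.elim (hi.1 x) (hi.2 x)) fun t _ => ?_
  have c : Continuous fun s : ℝ => ‖G s - G t‖ + C * (1 + |t| + |s|) ^ m * |t - s| := by fun_prop
  refine ⟨_, mem_nhdsWithin_of_mem_nhds (c.continuousAt.eventually_lt continuousAt_const
    (g := fun _ => η / 2) (x₀ := t) (by simpa using hη)), ?_⟩
  filter_upwards [h, (tendsto_iff_norm_sub_tendsto_zero.1 (p t)).eventually_lt_const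
    (half_pos hη)] with i h1 h2 s hs
  have h3 := h1 t s
  have h4 : ‖G s - F i s‖ ≤ ‖G s - G t‖ + ‖F i t - F i s‖ + ‖F i t - G t‖ := by
    rw [show G s - F i s = G s - G t + (F i t - F i s) - (F i t - G t) by ring]
    exact (norm_sub_le _ _).trans (add_le_add_left (norm_add_le _ _) _)
  have h5 : ‖G s - G t‖ + C * (1 + |t| + |s|) ^ m * |t - s| < η / 2 := hs
  linarith

end Vit

theorem vit_row : VIT := by
  intro ι l F C s0 m h1 h2 h3 h4 s1
  refine (tendsto_iff_ultrafilter _ _ _).2 fun U hU => ?_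
  replace h1 := h1.filter_mono hU
  replace h2 := h2.filter_mono hU
  replace h3 := h3.filter_mono hU
  choose G _ hG using fun s => (isCompact_closedBall (0 : ℂ) (C * (1 + |s|) ^ m)).ultrafilter_le_nhds
    (U.map fun i => F i s) (le_principal_iff.2 (mem_map.2 (h1.mono fun i hi => by simpa using hi s)))
  replace hG : ∀ s, Tendsto (fun i => F i s) U (𝓝 (G s)) := hG
  have g1 : ∀ s, ‖G s‖ ≤ C * (1 + |s|) ^ m := fun s =>
    le_of_tendsto (hG s).norm (h1.mono fun i hi => hi s)
  have g2 : Continuous G := Vit.cont fun s t =>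
    le_of_tendsto ((hG s).sub (hG t)).norm (h2.mono fun i hi => hi s t)
  refine Vit.one g2 g1 (fun g hg => ?_)
    (fun s k => tendsto_nhds_unique (hG s) ((h4 s k).mono_left hU)) s1 ▸ hG s1
  let w : ℕ → ℝ → ℝ := fun n s =>
    ‖g s‖ * if |s| ≤ n then 1 / ((n : ℝ) + 1) else 2 * (C * (1 + |s|) ^ m)
  have w0 : ∀ n s, ‖w n s‖ ≤ ‖g s‖ + 2 * |C| * (‖g s‖ * (1 + |s|) ^ m) := fun n s => by
    simp only [w, norm_mul, norm_norm]
    split_ifs
    · exact le_add_of_le_of_nonneg (mul_le_of_le_one_right (norm_nonneg _) (by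
        rw [Real.norm_of_nonneg (by positivity), div_le_one (by positivity)]
        linarith [Nat.cast_nonneg (α := ℝ) n])) (by positivity)
    · refine le_add_of_nonneg_of_le (norm_nonneg _) (le_of_eq ?_)
      simp only [norm_mul, norm_pow, Real.norm_eq_abs, abs_of_pos (by positivity : 0 < 1 + |s|),
        abs_two]
      ring
  have w1 : ∀ n, AEStronglyMeasurable (w n) volume := fun n =>
    (g.continuous.norm.measurable.mul (Measurable.ite (measurableSet_le (by fun_prop)
      measurable_const) measurable_const (by fun_prop))).aestronglyMeasurable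
  have w2 := g.integrable.norm.add ((Vit.int_w g m).const_mul (2 * |C|))
  have w3 : Tendsto (fun n => ∫ s, w n s) atTop (𝓝 (∫ _ : ℝ, (0 : ℝ))) :=
    tendsto_integral_of_dominated_convergence _ w1 w2 (fun n => .of_forall (w0 n))
      (.of_forall fun s => by
        refine Tendsto.congr' ((tendsto_natCast_atTop_atTop.eventually_ge_atTop |s|).mono
          fun n hn => by simp only [w, if_pos hn]; rfl) ?_
        simpa using tendsto_one_div_add_atTop_nhds_zero_nat.const_mul ‖g s‖)
  rw [integral_zero] at w3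
  refine norm_le_zero_iff.1 (ge_of_tendsto' w3 fun n => ?_)
  obtain ⟨i, k1, k2, k3, k4⟩ := (h1.and (h2.and (h3.and (Vit.unif h2 g2 hG
    (isCompact_Icc (a := -(n : ℝ)) (b := n)) Nat.one_div_pos_of_nat)))).exists
  rw [← sub_zero (∫ s, g s * G s), ← k3 g hg, ← integral_sub (Vit.int_mul g g2 g1)
    (Vit.int_mul g (Vit.cont k2) k1)]
  refine norm_integral_le_of_norm_le (w2.mono' (w1 n) (.of_forall (w0 n))) (.of_forall fun s => ?_)
  rw [← mul_sub, norm_mul]
  refine mul_le_mul_of_nonneg_left ?_ (norm_nonneg _)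
  split_ifs with e
  · exact k4 s (abs_le.1 e)
  · linarith [norm_sub_le (G s) (F i s), g1 s, k1 s]

end Vale.Agent.P352X.CK
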